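import Mathlib

/-!
Computability of the arithmetic of `ℚ`, for the `Primcodable ℚ` instance coming from
`Rat.instDenumerable` (the index of the code of a rational among all valid codes).
-/

namespace Crest.Agent.Lib.BF

open Encodable Denumerable

/-- the absolute value of the integer with code `a` (`Equiv.intEquivNat`). -/
def absOf (a : ℕ) : ℕ := if a % 2 = 0 then a / 2 else a / 2 + 1

/-- the positive part of the integer with code `a`. -/
def posOf (a : ℕ) : ℕ := if a % 2 = 0 then a / 2 else 0

/-- the negative part of the integer with code `a`. -/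
def negOf (a : ℕ) : ℕ := if a % 2 = 0 then 0 else a / 2 + 1

theorem encode_int_eq (z : ℤ) : @encode ℤ Int.encodable z =
    if 0 ≤ z then 2 * z.toNat else 2 * (-z - 1).toNat + 1 := by
  cases z with
  | ofNat n =>
    simp only [Int.ofNat_eq_natCast]
    have : (0 : ℤ) ≤ (n : ℤ) := Int.natCast_nonneg n
    simp only [this, if_true, Int.toNat_natCast]
    rfl
  | negSucc n =>
    have h : ¬ (0 : ℤ) ≤ Int.negSucc n := by simp
    simp only [h, if_false]
    have h2 : (- Int.negSucc n - 1).toNat = n := by
      have : - Int.negSucc n - 1 = (n : ℤ) := by rw [Int.negSucc_eq]; ring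
      rw [this]; simp
    rw [h2]
    rfl

theorem absOf_encode (z : ℤ) : absOf (@encode ℤ Int.encodable z) = z.natAbs := by
  rw [encode_int_eq]
  unfold absOf
  split_ifs with h1 h2 h2
  · omega
  · omega
  · omega
  · omega

theorem posOf_encode (z : ℤ) : posOf (@encode ℤ Int.encodable z) = z.toNat := by
  rw [encode_int_eq]
  unfold posOf
  split_ifs with h1 h2 h2
  · omega
  · omega
  · omega
  · omega

theorem negOf_encode (z : ℤ) : negOf (@encode ℤ Int.encodable z) = (-z).toNat := by
  rw [encode_int_eq]
  unfold negOf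
  split_ifs with h1 h2 h2
  · omega
  · omega
  · omega
  · omega

theorem primrec_absOf : Primrec absOf := by
  unfold absOf
  refine Primrec.ite ?_ ?_ ?_
  · exact Primrec.eq.comp (Primrec.nat_mod.comp Primrec.id (Primrec.const 2)) (Primrec.const 0)
  · exact Primrec.nat_div.comp Primrec.id (Primrec.const 2)
  · exact Primrec.succ.comp (Primrec.nat_div.comp Primrec.id (Primrec.const 2))

theorem primrec_posOf : Primrec posOf := by
  unfold posOf
  refine Primrec.ite ?_ ?_ ?_
  · exact Primrec.eq.comp (Primrec.nat_mod.comp Primrec.id (Primrec.const 2)) (Primrec.const 0)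
  · exact Primrec.nat_div.comp Primrec.id (Primrec.const 2)
  · exact Primrec.const 0

theorem primrec_negOf : Primrec negOf := by
  unfold negOf
  refine Primrec.ite ?_ ?_ ?_
  · exact Primrec.eq.comp (Primrec.nat_mod.comp Primrec.id (Primrec.const 2)) (Primrec.const 0)
  · exact Primrec.const 0
  · exact Primrec.succ.comp (Primrec.nat_div.comp Primrec.id (Primrec.const 2))

/-- validity of a code: the membership test for the range of the old encoding. -/
def CodeOk (m : ℕ) : Prop :=
  0 < (Nat.unpair m).2 ∧
    ∀ d < (Nat.unpair m).2 + 1,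
      ¬ (2 ≤ d ∧ absOf (Nat.unpair m).1 % d = 0 ∧ (Nat.unpair m).2 % d = 0)

instance : DecidablePred CodeOk := fun m => by unfold CodeOk; infer_instance

theorem primrecPred_codeOk : PrimrecPred CodeOk := by
  unfold CodeOk
  refine PrimrecPred.and ?_ ?_
  · exact Primrec.nat_lt.comp (Primrec.const 0) (Primrec.snd.comp Primrec.unpair)
  · have hR : PrimrecRel (fun (d m : ℕ) =>
        ¬ (2 ≤ d ∧ absOf (Nat.unpair m).1 % d = 0 ∧ (Nat.unpair m).2 % d = 0)) := by
      refine PrimrecPred.not ?_
      refine PrimrecPred.and ?_ (PrimrecPred.and ?_ ?_)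
      · exact Primrec.nat_le.comp (Primrec.const 2) Primrec.fst
      · refine Primrec.eq.comp ?_ (Primrec.const 0)
        exact Primrec.nat_mod.comp (primrec_absOf.comp (Primrec.fst.comp (Primrec.unpair.comp Primrec.snd)))
          Primrec.fst
      · refine Primrec.eq.comp ?_ (Primrec.const 0)
        exact Primrec.nat_mod.comp (Primrec.snd.comp (Primrec.unpair.comp Primrec.snd))
          Primrec.fst
    exact hR.forall_lt.comp (Primrec.succ.comp (Primrec.snd.comp Primrec.unpair)) Primrec.id

theorem coprime_iff_forall (a b : ℕ) (hb : 0 < b) :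
    Nat.Coprime a b ↔ ∀ d < b + 1, ¬ (2 ≤ d ∧ a % d = 0 ∧ b % d = 0) := by
  constructor
  · intro h d _ hd
    have h1 : d ∣ a := Nat.dvd_of_mod_eq_zero hd.2.1
    have h2 : d ∣ b := Nat.dvd_of_mod_eq_zero hd.2.2
    have h3 : d ∣ Nat.gcd a b := Nat.dvd_gcd h1 h2
    rw [Nat.Coprime] at h
    rw [h] at h3
    have := Nat.le_of_dvd Nat.one_pos h3
    omega
  · intro h
    by_contra hc
    have hg : Nat.gcd a b ∣ b := Nat.gcd_dvd_right a b
    have hg' : Nat.gcd a b ∣ a := Nat.gcd_dvd_left a b
    have hle := Nat.le_of_dvd hb hg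
    have hne : Nat.gcd a b ≠ 1 := hc
    have hpos : 0 < Nat.gcd a b := Nat.gcd_pos_of_pos_right a hb
    refine h (Nat.gcd a b) (by omega) ⟨by omega, Nat.mod_eq_zero_of_dvd hg', Nat.mod_eq_zero_of_dvd hg⟩

/-- the old encoding of rationals -/
def oldE (q : ℚ) : ℕ := @encode ℚ Rat.instEncodable q

theorem oldE_eq (q : ℚ) : oldE q = Nat.pair (@encode ℤ Int.encodable q.num) q.den := rfl

theorem mem_range_oldE_iff (m : ℕ) : m ∈ Set.range oldE ↔ CodeOk m := by
  constructor
  · rintro ⟨q, rfl⟩
    rw [oldE_eq]
    unfold CodeOk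
    simp only [Nat.unpair_pair]
    refine ⟨q.den_pos, ?_⟩
    rw [absOf_encode]
    exact (coprime_iff_forall _ _ q.den_pos).1 q.reduced
  · rintro ⟨h1, h2⟩
    set a := (Nat.unpair m).1 with ha
    set b := (Nat.unpair m).2 with hb
    have hm : m = Nat.pair a b := (Nat.pair_unpair m).symm
    -- the integer with code a
    set z : ℤ := (Equiv.intEquivNat).symm a with hz
    have hza : @encode ℤ Int.encodable z = a := by
      change Equiv.intEquivNat z = a
      simp [hz]
    have hcop : Nat.Coprime z.natAbs b := by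
      rw [coprime_iff_forall _ _ h1, ← absOf_encode, hza]
      exact h2
    refine ⟨Rat.mk' z b h1.ne' hcop, ?_⟩
    rw [oldE_eq, hm]
    simp only [hza]

instance : DecidablePred (· ∈ Set.range oldE) := fun m =>
  decidable_of_iff (CodeOk m) (mem_range_oldE_iff m).symm

/-- the `n`-th valid code -/
noncomputable def nthCode (n : ℕ) : ℕ := oldE (ofNat ℚ n)

theorem nthCode_mem (n : ℕ) : CodeOk (nthCode n) :=
  (mem_range_oldE_iff _).1 ⟨_, rfl⟩

attribute [local instance] Encodable.decidableRangeEncode

private theorem inf_range : Infinite (Set.range (@encode ℚ Rat.instEncodable)) :=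
  Infinite.of_injective _ (Equiv.ofInjective _ encode_injective).injective

private theorem nthCode_eq_aux (n : ℕ) : nthCode n =
    ((@Nat.Subtype.ofNat (Set.range (@encode ℚ Rat.instEncodable))
      (Encodable.decidableRangeEncode ℚ) inf_range n : _) : ℕ) := by
  show @encode ℚ Rat.instEncodable (@ofNat ℚ (Denumerable.ofEncodableOfInfinite ℚ) n) = _
  unfold Denumerable.ofEncodableOfInfinite
  rw [Denumerable.ofEquiv_ofNat]
  simp only [Encodable.equivRangeEncode]
  have h : ∀ x : Set.range (@encode ℚ Rat.instEncodable),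
      @encode ℚ Rat.instEncodable ((Encodable.equivRangeEncode ℚ).symm x) = x := by
    intro x
    have := (Encodable.equivRangeEncode ℚ).apply_symm_apply x
    exact congrArg Subtype.val this
  have h3 := h (@ofNat _ (@Nat.Subtype.denumerable _ (Encodable.decidableRangeEncode ℚ) inf_range) n)
  refine h3.trans ?_
  rw [Nat.Subtype.denumerable, Denumerable.ofEquiv_ofNat]
  simp

/-- successor property of the enumeration of valid codes: `nthCode (n+1)` is the first
valid code above `nthCode n`. -/
theorem nthCode_succ_spec (n : ℕ) :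
    ∃ k, nthCode (n + 1) = nthCode n + k + 1 ∧ CodeOk (nthCode n + k + 1) ∧
      ∀ j < k, ¬ CodeOk (nthCode n + j + 1) := by
  classical
  have e1 := nthCode_eq_aux n
  have e2 := nthCode_eq_aux (n + 1)
  set x := @Nat.Subtype.ofNat (Set.range (@encode ℚ Rat.instEncodable))
      (Encodable.decidableRangeEncode ℚ) inf_range n with hx
  have hh : ∃ m, (x : ℕ) + m + 1 ∈ Set.range (@encode ℚ Rat.instEncodable) :=
    @Nat.Subtype.exists_succ _ inf_range x
  have e3 : nthCode (n + 1) = (x : ℕ) + @Nat.find _ (fun a => Encodable.decidableRangeEncode ℚ _) hh + 1 := by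
    rw [e2]
    rfl
  have hmem : ∀ m, CodeOk m ↔ m ∈ Set.range (@encode ℚ Rat.instEncodable) := fun m =>
    (mem_range_oldE_iff m).symm
  refine ⟨@Nat.find _ (fun a => Encodable.decidableRangeEncode ℚ _) hh, ?_, ?_, ?_⟩
  · rw [e3, e1]
  · rw [e1, hmem]
    exact @Nat.find_spec _ (fun a => Encodable.decidableRangeEncode ℚ _) hh
  · intro j hj
    rw [e1, hmem]
    exact @Nat.find_min _ (fun a => Encodable.decidableRangeEncode ℚ _) hh _ hj

theorem computable_nthCode : Computable nthCode := by
  -- the search for the next valid code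
  have hp : Partrec₂ (fun (m k : ℕ) =>
      (Part.some (decide (CodeOk (m + k + 1))) : Part Bool)) := by
    have : Computable fun p : ℕ × ℕ => decide (CodeOk (p.1 + p.2 + 1)) := by
      have h1 : Primrec fun p : ℕ × ℕ => decide (CodeOk (p.1 + p.2 + 1)) := by
        obtain ⟨_, hd⟩ := primrecPred_codeOk
        have h2 := hd.comp (Primrec.succ.comp (Primrec.nat_add.comp Primrec.fst Primrec.snd))
        refine h2.of_eq ?_
        intro p
        simp only [Nat.succ_eq_add_one]
        congr
      exact h1.to_comp
    exact this.partrec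
  have hr := Partrec.rfind hp
  have hstep : Partrec₂ (fun (_ : ℕ) (y : ℕ × ℕ) =>
      (Nat.rfind (fun k => (Part.some (decide (CodeOk (y.2 + k + 1))) : Part Bool))).map
        (fun k => y.2 + k + 1)) := by
    have h1 : Partrec (fun a : ℕ × ℕ × ℕ =>
        Nat.rfind (fun k => (Part.some (decide (CodeOk (a.2.2 + k + 1))) : Part Bool))) :=
      hr.comp (Computable.snd.comp Computable.snd)
    have h2 : Computable₂ (fun (a : ℕ × ℕ × ℕ) (k : ℕ) => a.2.2 + k + 1) := by
      have : Primrec₂ (fun (a : ℕ × ℕ × ℕ) (k : ℕ) => a.2.2 + k + 1) :=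
        Primrec.succ.comp (Primrec.nat_add.comp
          (Primrec.snd.comp (Primrec.snd.comp Primrec.fst)) Primrec.snd)
      exact this.to_comp
    exact (Partrec.map h1 h2).to₂.of_eq (fun _ => rfl)
  have hrec := Partrec.nat_rec (f := fun n : ℕ => n) (g := fun _ => Part.some (nthCode 0))
    Computable.id (Computable.const (nthCode 0)).partrec hstep
  refine hrec.of_eq_tot ?_
  intro n
  induction n with
  | zero => simp
  | succ n ih =>
    simp only [Part.mem_bind_iff]
    refine ⟨nthCode n, ih, ?_⟩
    obtain ⟨k, hk1, hk2, hk3⟩ := nthCode_succ_spec n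
    rw [Part.mem_map_iff]
    refine ⟨k, ?_, hk1.symm⟩
    refine Nat.mem_rfind.2 ⟨?_, ?_⟩
    · simp [hk2]
    · intro m hm
      simp [hk3 m hm]

theorem computable_oldE : Computable oldE := by
  refine (computable_nthCode.comp Computable.encode).of_eq ?_
  intro q
  rw [nthCode, Denumerable.ofNat_encode]

/-- the raw components of a rational. -/
def ratPos (q : ℚ) : ℕ := q.num.toNat
/-- the raw components of a rational. -/
def ratNeg (q : ℚ) : ℕ := (-q.num).toNat

theorem computable_den : Computable (fun q : ℚ => q.den) := by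
  refine (Computable.snd.comp (Computable.unpair.comp computable_oldE)).of_eq ?_
  intro q
  simp [oldE_eq]

theorem computable_ratPos : Computable ratPos := by
  refine (primrec_posOf.to_comp.comp (Computable.fst.comp (Computable.unpair.comp computable_oldE))).of_eq ?_
  intro q
  simp [oldE_eq, posOf_encode, ratPos]

theorem computable_ratNeg : Computable ratNeg := by
  refine (primrec_negOf.to_comp.comp (Computable.fst.comp (Computable.unpair.comp computable_oldE))).of_eq ?_
  intro q
  simp [oldE_eq, negOf_encode, ratNeg]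

theorem rat_eq_raw (q : ℚ) : q = ((ratPos q : ℚ) - ratNeg q) / q.den := by
  have h : ((ratPos q : ℤ) - ratNeg q) = q.num := by
    unfold ratPos ratNeg; omega
  have h2 : ((ratPos q : ℚ) - ratNeg q) = (q.num : ℚ) := by
    rw [← h]; push_cast; ring
  rw [h2]
  exact (Rat.num_div_den q).symm

/-- the rational `(P - N) / (D + 1)` -/
def ratOut (t : ℕ × ℕ × ℕ) : ℚ := ((t.1 : ℚ) - t.2.1) / ((t.2.2 : ℚ) + 1)

/-- the test for the search in `ratOut`: the code `c` represents `(P - N) / (D + 1)`. -/
def outTest (t : ℕ × ℕ × ℕ) (c : ℕ) : Prop :=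
  posOf (Nat.unpair c).1 * (t.2.2 + 1) + t.2.1 * (Nat.unpair c).2 =
    t.1 * (Nat.unpair c).2 + negOf (Nat.unpair c).1 * (t.2.2 + 1)

instance (t : ℕ × ℕ × ℕ) : DecidablePred (outTest t) := fun c => by unfold outTest; infer_instance

theorem outTest_iff (t : ℕ × ℕ × ℕ) (q : ℚ) : outTest t (oldE q) ↔ q = ratOut t := by
  unfold outTest ratOut
  simp only [oldE_eq, Nat.unpair_pair, posOf_encode, negOf_encode]
  have hq := rat_eq_raw q
  have hd : (q.den : ℚ) ≠ 0 := by exact_mod_cast q.den_pos.ne'
  have hd2 : ((t.2.2 : ℚ) + 1) ≠ 0 := by positivity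
  constructor
  · intro h
    have h' : ((q.num.toNat : ℚ) * (t.2.2 + 1) + t.2.1 * q.den) =
        (t.1 * q.den + ((-q.num).toNat : ℚ) * (t.2.2 + 1)) := by exact_mod_cast h
    rw [hq]
    unfold ratPos ratNeg
    field_simp
    linarith
  · intro h
    rw [hq] at h
    unfold ratPos ratNeg at h
    field_simp at h
    have h' : ((q.num.toNat : ℚ) * (t.2.2 + 1) + t.2.1 * q.den) =
        (t.1 * q.den + ((-q.num).toNat : ℚ) * (t.2.2 + 1)) := by linarith
    exact_mod_cast h'

theorem computable_ratOut : Computable ratOut := by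
  have hp : Partrec₂ (fun (t : ℕ × ℕ × ℕ) (i : ℕ) =>
      (Part.some (decide (outTest t (nthCode i))) : Part Bool)) := by
    have : Computable fun p : (ℕ × ℕ × ℕ) × ℕ => decide (outTest p.1 (nthCode p.2)) := by
      -- unfold into arithmetic
      have hc : Computable fun p : (ℕ × ℕ × ℕ) × ℕ => nthCode p.2 :=
        computable_nthCode.comp Computable.snd
      have hu := Computable.unpair.comp hc
      have hA : Computable fun p : (ℕ × ℕ × ℕ) × ℕ =>
          posOf (Nat.unpair (nthCode p.2)).1 * (p.1.2.2 + 1) + p.1.2.1 * (Nat.unpair (nthCode p.2)).2 := by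
        refine Primrec.nat_add.to_comp.comp ?_ ?_
        · refine Primrec.nat_mul.to_comp.comp (primrec_posOf.to_comp.comp (Computable.fst.comp hu)) ?_
          exact Computable.succ.comp (Computable.snd.comp (Computable.snd.comp Computable.fst))
        · refine Primrec.nat_mul.to_comp.comp ?_ (Computable.snd.comp hu)
          exact Computable.fst.comp (Computable.snd.comp Computable.fst)
      have hB : Computable fun p : (ℕ × ℕ × ℕ) × ℕ =>
          p.1.1 * (Nat.unpair (nthCode p.2)).2 + negOf (Nat.unpair (nthCode p.2)).1 * (p.1.2.2 + 1) := by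
        refine Primrec.nat_add.to_comp.comp ?_ ?_
        · refine Primrec.nat_mul.to_comp.comp (Computable.fst.comp Computable.fst) (Computable.snd.comp hu)
        · refine Primrec.nat_mul.to_comp.comp (primrec_negOf.to_comp.comp (Computable.fst.comp hu)) ?_
          exact Computable.succ.comp (Computable.snd.comp (Computable.snd.comp Computable.fst))
      have heq : Primrec₂ (fun a b : ℕ => decide (a = b)) := Primrec.eq.decide
      refine (heq.to_comp.comp hA hB).of_eq ?_
      intro p
      simp only [outTest]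
    exact this.partrec
  have hr := Partrec.rfind hp
  have hm : Partrec (fun t : ℕ × ℕ × ℕ =>
      (Nat.rfind (fun i => (Part.some (decide (outTest t (nthCode i))) : Part Bool))).map (ofNat ℚ)) := by
    have h2 : Computable₂ (fun (_ : ℕ × ℕ × ℕ) (i : ℕ) => ofNat ℚ i) :=
      (Computable.ofNat ℚ).comp Computable.snd
    exact Partrec.map hr h2
  refine hm.of_eq_tot ?_
  intro t
  rw [Part.mem_map_iff]
  -- the search terminates
  have hex : ∃ i, outTest t (nthCode i) := by
    refine ⟨@encode ℚ Rat.instDenumerable.toEncodable (ratOut t), ?_⟩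
    have : nthCode (@encode ℚ Rat.instDenumerable.toEncodable (ratOut t)) = oldE (ratOut t) := by
      rw [nthCode, Denumerable.ofNat_encode]
    rw [this, outTest_iff]
  classical
  refine ⟨Nat.find hex, ?_, ?_⟩
  · refine Nat.mem_rfind.2 ⟨?_, ?_⟩
    · simpa using Nat.find_spec hex
    · intro m hm
      simpa using Nat.find_min hex hm
  · have := Nat.find_spec hex
    unfold nthCode at this
    exact (outTest_iff t _).1 this

/-- a rational as a value of `ratOut`. -/
theorem ratOut_raw (q : ℚ) : ratOut (ratPos q, ratNeg q, q.den - 1) = q := by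
  unfold ratOut
  simp only
  have hd : ((q.den - 1 : ℕ) : ℚ) + 1 = q.den := by
    have := q.den_pos
    rw [Nat.cast_sub this]; simp
  rw [hd]
  exact (rat_eq_raw q).symm

section ops

variable {α : Type*} [Primcodable α]

private theorem nm : Computable₂ (fun a b : ℕ => a * b) := Primrec.nat_mul.to_comp
private theorem na : Computable₂ (fun a b : ℕ => a + b) := Primrec.nat_add.to_comp

theorem computable_rat_add : Computable₂ (fun a b : ℚ => a + b) := by
  have hd1 : Computable fun p : ℚ × ℚ => p.1.den := computable_den.comp Computable.fst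
  have hd2 : Computable fun p : ℚ × ℚ => p.2.den := computable_den.comp Computable.snd
  have hp1 : Computable fun p : ℚ × ℚ => ratPos p.1 := computable_ratPos.comp Computable.fst
  have hp2 : Computable fun p : ℚ × ℚ => ratPos p.2 := computable_ratPos.comp Computable.snd
  have hn1 : Computable fun p : ℚ × ℚ => ratNeg p.1 := computable_ratNeg.comp Computable.fst
  have hn2 : Computable fun p : ℚ × ℚ => ratNeg p.2 := computable_ratNeg.comp Computable.snd
  have h1 : Computable fun p : ℚ × ℚ =>
      ratOut (ratPos p.1 * p.2.den + ratPos p.2 * p.1.den,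
        ratNeg p.1 * p.2.den + ratNeg p.2 * p.1.den, p.1.den * p.2.den - 1) := by
    refine computable_ratOut.comp (Computable.pair ?_ (Computable.pair ?_ ?_))
    · exact na.comp (nm.comp hp1 hd2) (nm.comp hp2 hd1)
    · exact na.comp (nm.comp hn1 hd2) (nm.comp hn2 hd1)
    · exact Computable.pred.comp (nm.comp hd1 hd2)
  refine h1.of_eq ?_
  rintro ⟨a, b⟩
  simp only [ratOut]
  have ha := rat_eq_raw a
  have hb := rat_eq_raw b
  have hda : (a.den : ℚ) ≠ 0 := by exact_mod_cast a.den_pos.ne'
  have hdb : (b.den : ℚ) ≠ 0 := by exact_mod_cast b.den_pos.ne'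
  have hd : ((a.den * b.den - 1 : ℕ) : ℚ) + 1 = a.den * b.den := by
    have : 0 < a.den * b.den := Nat.mul_pos a.den_pos b.den_pos
    rw [Nat.cast_sub this]; push_cast; ring
  rw [hd]
  conv_rhs => rw [ha, hb]
  push_cast
  field_simp
  ring

theorem computable_rat_mul : Computable₂ (fun a b : ℚ => a * b) := by
  have hd1 : Computable fun p : ℚ × ℚ => p.1.den := computable_den.comp Computable.fst
  have hd2 : Computable fun p : ℚ × ℚ => p.2.den := computable_den.comp Computable.snd
  have hp1 : Computable fun p : ℚ × ℚ => ratPos p.1 := computable_ratPos.comp Computable.fst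
  have hp2 : Computable fun p : ℚ × ℚ => ratPos p.2 := computable_ratPos.comp Computable.snd
  have hn1 : Computable fun p : ℚ × ℚ => ratNeg p.1 := computable_ratNeg.comp Computable.fst
  have hn2 : Computable fun p : ℚ × ℚ => ratNeg p.2 := computable_ratNeg.comp Computable.snd
  have h1 : Computable fun p : ℚ × ℚ =>
      ratOut (ratPos p.1 * ratPos p.2 + ratNeg p.1 * ratNeg p.2,
        ratPos p.1 * ratNeg p.2 + ratNeg p.1 * ratPos p.2, p.1.den * p.2.den - 1) := by
    refine computable_ratOut.comp (Computable.pair ?_ (Computable.pair ?_ ?_))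
    · exact na.comp (nm.comp hp1 hp2) (nm.comp hn1 hn2)
    · exact na.comp (nm.comp hp1 hn2) (nm.comp hn1 hp2)
    · exact Computable.pred.comp (nm.comp hd1 hd2)
  refine h1.of_eq ?_
  rintro ⟨a, b⟩
  simp only [ratOut]
  have ha := rat_eq_raw a
  have hb := rat_eq_raw b
  have hda : (a.den : ℚ) ≠ 0 := by exact_mod_cast a.den_pos.ne'
  have hdb : (b.den : ℚ) ≠ 0 := by exact_mod_cast b.den_pos.ne'
  have hd : ((a.den * b.den - 1 : ℕ) : ℚ) + 1 = a.den * b.den := by
    have : 0 < a.den * b.den := Nat.mul_pos a.den_pos b.den_pos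
    rw [Nat.cast_sub this]; push_cast; ring
  rw [hd]
  conv_rhs => rw [ha, hb]
  push_cast
  field_simp
  ring

theorem computable_rat_neg : Computable (fun a : ℚ => -a) := by
  have h1 : Computable fun a : ℚ => ratOut (ratNeg a, ratPos a, a.den - 1) := by
    refine computable_ratOut.comp (Computable.pair computable_ratNeg (Computable.pair computable_ratPos ?_))
    exact Computable.pred.comp computable_den
  refine h1.of_eq ?_
  intro a
  conv_rhs => rw [← ratOut_raw a]
  simp only [ratOut]
  ring

theorem computable_nat_cast : Computable (fun n : ℕ => (n : ℚ)) := by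
  have h1 : Computable fun n : ℕ => ratOut (n, 0, 0) :=
    computable_ratOut.comp (Computable.pair Computable.id (Computable.const _))
  refine h1.of_eq ?_
  intro n
  simp [ratOut]

theorem computable_rat_inv : Computable (fun a : ℚ => a⁻¹) := by
  -- (den * [pos>0], den * [neg>0], pos + neg - 1)
  have hd := computable_den
  have hp := computable_ratPos
  have hn := computable_ratNeg
  have hsgn : Primrec (fun x : ℕ => if 0 < x then 1 else 0) :=
    Primrec.ite (Primrec.nat_lt.comp (Primrec.const 0) Primrec.id) (Primrec.const 1) (Primrec.const 0)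
  have h1 : Computable fun a : ℚ =>
      ratOut (a.den * (if 0 < ratPos a then 1 else 0),
        a.den * (if 0 < ratNeg a then 1 else 0), ratPos a + ratNeg a - 1) := by
    refine computable_ratOut.comp (Computable.pair ?_ (Computable.pair ?_ ?_))
    · exact nm.comp hd (hsgn.to_comp.comp hp)
    · exact nm.comp hd (hsgn.to_comp.comp hn)
    · exact Computable.pred.comp (na.comp hp hn)
  refine h1.of_eq ?_
  intro a
  have ha := rat_eq_raw a
  have hda : (a.den : ℚ) ≠ 0 := by exact_mod_cast a.den_pos.ne'
  simp only [ratOut]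
  rcases lt_trichotomy a.num 0 with h | h | h
  · have h1 : ratPos a = 0 := by unfold ratPos; omega
    have h2 : 0 < ratNeg a := by unfold ratNeg; omega
    have h3 : a ≠ 0 := by intro h0; rw [h0] at h; simp at h
    simp only [h1, h2, lt_self_iff_false, if_false, if_true]
    have h4 : ((0 + ratNeg a - 1 : ℕ) : ℚ) + 1 = ratNeg a := by
      rw [zero_add, Nat.cast_sub h2]; simp
    rw [h4]
    have h5 : (ratNeg a : ℚ) ≠ 0 := by exact_mod_cast h2.ne'
    conv_rhs => rw [ha, h1]
    push_cast
    field_simp
    ring
  · have h0 : a = 0 := Rat.num_eq_zero.1 h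
    subst h0
    simp [ratPos, ratNeg]
  · have h1 : ratNeg a = 0 := by unfold ratNeg; omega
    have h2 : 0 < ratPos a := by unfold ratPos; omega
    simp only [h1, h2, lt_self_iff_false, if_false, if_true]
    have h4 : ((ratPos a + 0 - 1 : ℕ) : ℚ) + 1 = ratPos a := by
      rw [add_zero, Nat.cast_sub h2]; simp
    rw [h4]
    have h5 : (ratPos a : ℚ) ≠ 0 := by exact_mod_cast h2.ne'
    conv_rhs => rw [ha, h1]
    push_cast
    simp only [sub_zero, mul_zero, mul_one]
    rw [inv_div]

theorem computable_rat_le : Computable (fun p : ℚ × ℚ => decide (p.1 ≤ p.2)) := by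
  have hd1 : Computable fun p : ℚ × ℚ => p.1.den := computable_den.comp Computable.fst
  have hd2 : Computable fun p : ℚ × ℚ => p.2.den := computable_den.comp Computable.snd
  have hp1 : Computable fun p : ℚ × ℚ => ratPos p.1 := computable_ratPos.comp Computable.fst
  have hp2 : Computable fun p : ℚ × ℚ => ratPos p.2 := computable_ratPos.comp Computable.snd
  have hn1 : Computable fun p : ℚ × ℚ => ratNeg p.1 := computable_ratNeg.comp Computable.fst
  have hn2 : Computable fun p : ℚ × ℚ => ratNeg p.2 := computable_ratNeg.comp Computable.snd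
  have hle : Primrec₂ (fun a b : ℕ => decide (a ≤ b)) := Primrec.nat_le.decide
  have h1 : Computable fun p : ℚ × ℚ =>
      decide (ratPos p.1 * p.2.den + ratNeg p.2 * p.1.den ≤ ratPos p.2 * p.1.den + ratNeg p.1 * p.2.den) := by
    refine hle.to_comp.comp ?_ ?_
    · exact na.comp (nm.comp hp1 hd2) (nm.comp hn2 hd1)
    · exact na.comp (nm.comp hp2 hd1) (nm.comp hn1 hd2)
  refine h1.of_eq ?_
  rintro ⟨a, b⟩
  simp only
  have ha := rat_eq_raw a
  have hb := rat_eq_raw b
  have hda : (0 : ℚ) < a.den := by exact_mod_cast a.den_pos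
  have hdb : (0 : ℚ) < b.den := by exact_mod_cast b.den_pos
  have key : a ≤ b ↔ ratPos a * b.den + ratNeg b * a.den ≤ ratPos b * a.den + ratNeg a * b.den := by
    rw [← @Nat.cast_le ℚ]
    push_cast
    conv_lhs => rw [ha, hb]
    rw [div_le_div_iff₀ hda hdb]
    constructor <;> intro h <;> nlinarith
  by_cases h : a ≤ b
  · simp [h, key.1 h]
  · have h2 : ¬ (ratPos a * b.den + ratNeg b * a.den ≤ ratPos b * a.den + ratNeg a * b.den) :=
      fun h3 => h (key.2 h3)
    rw [decide_eq_false h2, decide_eq_false h]

theorem computable_decide_le {f g : α → ℚ} (hf : Computable f) (hg : Computable g) :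
    Computable (fun a => decide (f a ≤ g a)) :=
  Computable₂.comp (f := fun a b : ℚ => decide (a ≤ b)) computable_rat_le hf hg

/-- an upper bound for the absolute value of a rational. -/
def ratCeil (q : ℚ) : ℕ := ratPos q + ratNeg q + 1

theorem computable_ratCeil : Computable ratCeil :=
  Computable.succ.comp (na.comp computable_ratPos computable_ratNeg)

theorem abs_le_ratCeil (q : ℚ) : |q| ≤ ratCeil q := by
  have h1 : |q| ≤ |(q.num : ℚ)| := by
    conv_lhs => rw [← Rat.num_div_den q, abs_div]
    have hd : (1 : ℚ) ≤ |(q.den : ℚ)| := by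
      rw [abs_of_pos (by exact_mod_cast q.den_pos)]
      exact_mod_cast q.den_pos
    exact div_le_self (abs_nonneg _) hd
  refine h1.trans ?_
  have h2 : |(q.num : ℚ)| = (q.num.natAbs : ℚ) := by
    rw [Nat.cast_natAbs]; simp
  rw [h2]
  have h3 : q.num.natAbs ≤ ratCeil q := by
    unfold ratCeil ratPos ratNeg; omega
  exact_mod_cast h3

end ops

end Crest.Agent.Lib.BF
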