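import Mathlib
import Crest.Agent.Lib.BF.RatComp

/-!
Computably approximable real-valued functions on encodable parameter types.
-/

namespace Crest.Agent.Lib.BF

open Computable Finset

variable {α β : Type} [Primcodable α] [Primcodable β]

/-- `f` is computably approximable: rational approximations with error `1/(n+1)`, computable
in the parameter and in `n`. -/
def CompReal (f : α → ℝ) : Prop :=
  ∃ a : α × ℕ → ℚ, Computable a ∧ ∀ p n, |f p - (a (p, n) : ℝ)| ≤ 1 / ((n : ℝ) + 1)

theorem one_div_succ_pos (n : ℕ) : (0 : ℝ) < 1 / ((n : ℝ) + 1) := by positivity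

theorem CompReal.of_eq {f g : α → ℝ} (hf : CompReal f) (h : ∀ p, f p = g p) : CompReal g := by
  obtain ⟨a, ha, hb⟩ := hf
  exact ⟨a, ha, fun p n => by rw [← h p]; exact hb p n⟩

theorem CompReal.comp {f : β → ℝ} (hf : CompReal f) {h : α → β} (hh : Computable h) :
    CompReal (fun p => f (h p)) := by
  obtain ⟨a, ha, hb⟩ := hf
  refine ⟨fun x => a (h x.1, x.2), ha.comp (Computable.pair (hh.comp Computable.fst) Computable.snd), ?_⟩
  intro p n
  exact hb (h p) n

theorem CompReal.ofRat {g : α → ℚ} (hg : Computable g) : CompReal (fun p => (g p : ℝ)) := by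
  refine ⟨fun x => g x.1, hg.comp Computable.fst, ?_⟩
  intro p n
  simp only [sub_self, abs_zero]
  exact (one_div_succ_pos n).le

theorem CompReal.const (c : ℚ) : CompReal (fun _ : α => (c : ℝ)) :=
  CompReal.ofRat (Computable.const c)

private theorem comp_add {f g : α → ℚ} (hf : Computable f) (hg : Computable g) :
    Computable (fun p => f p + g p) := computable_rat_add.comp hf hg

private theorem comp_mul {f g : α → ℚ} (hf : Computable f) (hg : Computable g) :
    Computable (fun p => f p * g p) := computable_rat_mul.comp hf hg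

theorem CompReal.add {f g : α → ℝ} (hf : CompReal f) (hg : CompReal g) :
    CompReal (fun p => f p + g p) := by
  obtain ⟨a, ha, hb⟩ := hf
  obtain ⟨a', ha', hb'⟩ := hg
  have hm : Computable (fun x : α × ℕ => (x.1, 2 * x.2 + 1)) :=
    Computable.pair Computable.fst
      ((Primrec.nat_double_succ.to_comp).comp Computable.snd)
  refine ⟨fun x => a (x.1, 2 * x.2 + 1) + a' (x.1, 2 * x.2 + 1),
    comp_add (ha.comp hm) (ha'.comp hm), ?_⟩
  intro p n
  have h1 := hb p (2 * n + 1)
  have h2 := hb' p (2 * n + 1)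
  push_cast at h1 h2 ⊢
  have hn : (0 : ℝ) ≤ n := Nat.cast_nonneg n
  have e : 1 / (2 * (n : ℝ) + 1 + 1) + 1 / (2 * (n : ℝ) + 1 + 1) = 1 / ((n : ℝ) + 1) := by
    field_simp
    ring
  calc |f p + g p - ((a (p, 2 * n + 1) : ℝ) + (a' (p, 2 * n + 1) : ℝ))|
      = |(f p - (a (p, 2 * n + 1) : ℝ)) + (g p - (a' (p, 2 * n + 1) : ℝ))| := by ring_nf
    _ ≤ |f p - (a (p, 2 * n + 1) : ℝ)| + |g p - (a' (p, 2 * n + 1) : ℝ)| := abs_add_le _ _
    _ ≤ 1 / ((n : ℝ) + 1) := by rw [← e]; exact add_le_add h1 h2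

theorem CompReal.neg {f : α → ℝ} (hf : CompReal f) : CompReal (fun p => - f p) := by
  obtain ⟨a, ha, hb⟩ := hf
  refine ⟨fun x => - a x, computable_rat_neg.comp ha, ?_⟩
  intro p n
  have h1 := hb p n
  push_cast
  rw [show - f p - - (a (p, n) : ℝ) = -(f p - (a (p, n) : ℝ)) by ring, abs_neg]
  exact h1

theorem CompReal.sub {f g : α → ℝ} (hf : CompReal f) (hg : CompReal g) :
    CompReal (fun p => f p - g p) :=
  (hf.add hg.neg).of_eq fun p => by ring

theorem CompReal.mul {f g : α → ℝ} (hf : CompReal f) (hg : CompReal g) :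
    CompReal (fun p => f p * g p) := by
  obtain ⟨a, ha, hb⟩ := hf
  obtain ⟨a', ha', hb'⟩ := hg
  -- the bounds
  let A : α → ℕ := fun p => ratCeil (a (p, 0))
  let B : α → ℕ := fun p => ratCeil (a' (p, 0))
  have hA : Computable A := computable_ratCeil.comp
    (ha.comp (Computable.pair Computable.id (Computable.const 0)))
  have hB : Computable B := computable_ratCeil.comp
    (ha'.comp (Computable.pair Computable.id (Computable.const 0)))
  have hAb : ∀ p, |f p| ≤ (A p : ℝ) + 1 := by
    intro p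
    have h1 := hb p 0
    have h2 : |((a (p, 0) : ℚ) : ℝ)| ≤ A p := by
      have := abs_le_ratCeil (a (p, 0))
      exact_mod_cast this
    have h3 : |f p| ≤ |f p - (a (p, 0) : ℝ)| + |((a (p, 0) : ℚ) : ℝ)| := by
      have := abs_add_le (f p - (a (p, 0) : ℝ)) ((a (p, 0) : ℚ) : ℝ)
      simpa using this
    norm_num at h1
    linarith
  have hBb : ∀ p, |g p| ≤ (B p : ℝ) + 1 := by
    intro p
    have h1 := hb' p 0
    have h2 : |((a' (p, 0) : ℚ) : ℝ)| ≤ B p := by
      have := abs_le_ratCeil (a' (p, 0))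
      exact_mod_cast this
    have h3 : |g p| ≤ |g p - (a' (p, 0) : ℝ)| + |((a' (p, 0) : ℚ) : ℝ)| := by
      have := abs_add_le (g p - (a' (p, 0) : ℝ)) ((a' (p, 0) : ℚ) : ℝ)
      simpa using this
    norm_num at h1
    linarith
  -- precision
  let m : α × ℕ → ℕ := fun x => (x.2 + 1) * (A x.1 + B x.1 + 3)
  have hm : Computable m := by
    refine Primrec.nat_mul.to_comp.comp (Computable.succ.comp Computable.snd) ?_
    exact Computable.succ.comp (Computable.succ.comp (Computable.succ.comp
      (Primrec.nat_add.to_comp.comp (hA.comp Computable.fst) (hB.comp Computable.fst))))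
  have hm1 : Computable (fun x : α × ℕ => (x.1, m x)) := Computable.pair Computable.fst hm
  refine ⟨fun x => a (x.1, m x) * a' (x.1, m x), comp_mul (ha.comp hm1) (ha'.comp hm1), ?_⟩
  intro p n
  set M := m (p, n) with hM
  have h1 := hb p M
  have h2 := hb' p M
  set x := ((a (p, M) : ℚ) : ℝ) with hx
  set y := ((a' (p, M) : ℚ) : ℝ) with hy
  set ε := 1 / ((M : ℝ) + 1) with hε
  have hεpos : 0 < ε := one_div_succ_pos M
  have hMcast : (M : ℝ) = ((n : ℝ) + 1) * ((A p : ℝ) + (B p : ℝ) + 3) := by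
    rw [hM]; simp only [m]; push_cast; ring
  have hA0 : (0 : ℝ) ≤ A p := Nat.cast_nonneg _
  have hB0 : (0 : ℝ) ≤ B p := Nat.cast_nonneg _
  have hn0 : (0 : ℝ) ≤ n := Nat.cast_nonneg _
  have hε1 : ε * ((A p : ℝ) + (B p : ℝ) + 3) ≤ 1 / ((n : ℝ) + 1) := by
    rw [hε, hMcast, div_mul_eq_mul_div, one_mul, div_le_div_iff₀ (by positivity) (by positivity)]
    nlinarith [mul_nonneg hA0 hn0, mul_nonneg hB0 hn0]
  have hε2 : ε ≤ 1 := by
    rw [hε, div_le_one (by positivity)]
    have : (0 : ℝ) ≤ M := Nat.cast_nonneg _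
    linarith
  have hxb : |x| ≤ (A p : ℝ) + 2 := by
    have h3 : |x| ≤ |f p - x| + |f p| := by
      have := abs_sub_abs_le_abs_sub x (f p)
      rw [abs_sub_comm] at this
      linarith
    have := hAb p
    linarith
  push_cast
  have key : f p * g p - x * y = (f p - x) * g p + x * (g p - y) := by ring
  rw [key]
  calc |(f p - x) * g p + x * (g p - y)| ≤ |(f p - x) * g p| + |x * (g p - y)| := abs_add_le _ _
    _ = |f p - x| * |g p| + |x| * |g p - y| := by rw [abs_mul, abs_mul]
    _ ≤ ε * ((B p : ℝ) + 1) + ((A p : ℝ) + 2) * ε := by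
        refine add_le_add ?_ ?_
        · exact mul_le_mul h1 (hBb p) (abs_nonneg _) hεpos.le
        · exact mul_le_mul hxb h2 (abs_nonneg _) (by positivity)
    _ = ε * ((A p : ℝ) + (B p : ℝ) + 3) := by ring
    _ ≤ 1 / ((n : ℝ) + 1) := hε1

/-- If `f` is uniformly approximated by a computably approximable family, it is computably
approximable. -/
theorem CompReal.of_approx {f : α → ℝ} {g : α × ℕ → ℝ} (hg : CompReal g)
    (h : ∀ p n, |f p - g (p, n)| ≤ 1 / ((n : ℝ) + 1)) : CompReal f := by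
  obtain ⟨a, ha, hb⟩ := hg
  have hm : Computable (fun x : α × ℕ => ((x.1, 2 * x.2 + 1), 2 * x.2 + 1)) := by
    have h2 : Computable (fun x : α × ℕ => 2 * x.2 + 1) :=
      (Primrec.nat_double_succ.to_comp).comp Computable.snd
    exact Computable.pair (Computable.pair Computable.fst h2) h2
  refine ⟨fun x => a ((x.1, 2 * x.2 + 1), 2 * x.2 + 1), ha.comp hm, ?_⟩
  intro p n
  have h1 := h p (2 * n + 1)
  have h2 := hb (p, 2 * n + 1) (2 * n + 1)
  push_cast at h1 h2
  have e : 1 / (2 * (n : ℝ) + 1 + 1) + 1 / (2 * (n : ℝ) + 1 + 1) = 1 / ((n : ℝ) + 1) := by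
    have hn : (0 : ℝ) ≤ n := Nat.cast_nonneg n
    field_simp
    ring
  calc |f p - (a ((p, 2 * n + 1), 2 * n + 1) : ℝ)|
      = |(f p - g (p, 2 * n + 1)) + (g (p, 2 * n + 1) - (a ((p, 2 * n + 1), 2 * n + 1) : ℝ))| := by
        ring_nf
    _ ≤ |f p - g (p, 2 * n + 1)| + |g (p, 2 * n + 1) - (a ((p, 2 * n + 1), 2 * n + 1) : ℝ)| :=
        abs_add_le _ _
    _ ≤ 1 / ((n : ℝ) + 1) := by rw [← e]; exact add_le_add h1 h2

/-- bounded sums of rationals are computable. -/
theorem computable_rat_sum {F : α × ℕ → ℚ} (hF : Computable F) {m : α → ℕ} (hm : Computable m) :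
    Computable (fun p => ∑ i ∈ range (m p), F (p, i)) := by
  have h : Computable₂ (fun (p : α) (y : ℕ × ℚ) => y.2 + F (p, y.1)) := by
    refine computable_rat_add.comp (Computable.snd.comp Computable.snd) ?_
    exact hF.comp (Computable.pair Computable.fst (Computable.fst.comp Computable.snd))
  refine (Computable.nat_rec hm (Computable.const (0 : ℚ)) h).of_eq ?_
  intro p
  induction m p with
  | zero => simp
  | succ k ih =>
    simp only [Finset.sum_range_succ]
    rw [← ih]

/-- bounded sums preserve computable approximability. -/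
theorem CompReal.sum_range {f : α × ℕ → ℝ} (hf : CompReal f) {m : α → ℕ} (hm : Computable m) :
    CompReal (fun p => ∑ i ∈ range (m p), f (p, i)) := by
  obtain ⟨a, ha, hb⟩ := hf
  have hN : Computable (fun x : α × ℕ => (x.2 + 1) * m x.1) :=
    Primrec.nat_mul.to_comp.comp (Computable.succ.comp Computable.snd) (hm.comp Computable.fst)
  have hF : Computable (fun y : (α × ℕ) × ℕ => a ((y.1.1, y.2), (y.1.2 + 1) * m y.1.1)) := by
    refine ha.comp (Computable.pair (Computable.pair (Computable.fst.comp Computable.fst) Computable.snd) ?_)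
    exact hN.comp Computable.fst
  have hS := computable_rat_sum hF (hm.comp Computable.fst)
  refine ⟨_, hS, ?_⟩
  intro p n
  simp only
  set N := (n + 1) * m p with hNdef
  push_cast
  rw [← Finset.sum_sub_distrib]
  calc |∑ i ∈ range (m p), (f (p, i) - (a ((p, i), N) : ℝ))|
      ≤ ∑ i ∈ range (m p), |f (p, i) - (a ((p, i), N) : ℝ)| := Finset.abs_sum_le_sum_abs _ _
    _ ≤ ∑ _i ∈ range (m p), 1 / ((N : ℝ) + 1) := Finset.sum_le_sum fun i _ => hb (p, i) N
    _ = (m p : ℝ) * (1 / ((N : ℝ) + 1)) := by simp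
    _ ≤ 1 / ((n : ℝ) + 1) := by
        have hNc : (N : ℝ) = ((n : ℝ) + 1) * (m p : ℝ) := by rw [hNdef]; push_cast; ring
        rw [hNc, mul_one_div, div_le_div_iff₀ (by positivity) (by positivity)]
        have h0 : (0 : ℝ) ≤ m p := Nat.cast_nonneg _
        have hn0 : (0 : ℝ) ≤ n := Nat.cast_nonneg _
        nlinarith

/-- powers of rationals are computable -/
theorem computable_rat_pow {f : α → ℚ} {k : α → ℕ} (hf : Computable f) (hk : Computable k) :
    Computable (fun p => f p ^ k p) := by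
  have h : Computable₂ (fun (p : α) (y : ℕ × ℚ) => y.2 * f p) :=
    computable_rat_mul.comp (Computable.snd.comp Computable.snd) (hf.comp Computable.fst)
  refine (Computable.nat_rec hk (Computable.const (1 : ℚ)) h).of_eq ?_
  intro p
  induction k p with
  | zero => simp
  | succ n ih =>
    simp only [pow_succ]
    rw [← ih]

theorem computable_rat_div {f g : α → ℚ} (hf : Computable f) (hg : Computable g) :
    Computable (fun p => f p / g p) := by
  have := computable_rat_mul.comp hf (computable_rat_inv.comp hg)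
  exact this.of_eq fun p => by rw [div_eq_mul_inv]

theorem computable_rat_sub {f g : α → ℚ} (hf : Computable f) (hg : Computable g) :
    Computable (fun p => f p - g p) := by
  have := computable_rat_add.comp hf (computable_rat_neg.comp hg)
  exact this.of_eq fun p => by rw [sub_eq_add_neg]

/-! ### the exponential at negative rationals -/

/-- approximation of `exp (-t)` -/
def expApprox (t : ℚ) (n : ℕ) : ℚ :=
  (1 - t / ((ratCeil t ^ 2 * (n + 1) : ℕ) : ℚ)) ^ (ratCeil t ^ 2 * (n + 1))

theorem computable_expApprox : Computable₂ expApprox := by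
  have hc : Computable (fun p : ℚ × ℕ => ratCeil p.1 ^ 2 * (p.2 + 1)) := by
    refine Primrec.nat_mul.to_comp.comp ?_ (Computable.succ.comp Computable.snd)
    have h1 := computable_ratCeil.comp (Computable.fst (α := ℚ) (β := ℕ))
    exact (Primrec.nat_mul.to_comp.comp h1 h1).of_eq fun p => by simp [pow_two]
  unfold expApprox
  refine computable_rat_pow ?_ hc
  refine computable_rat_sub (Computable.const 1) (computable_rat_div Computable.fst ?_)
  exact computable_nat_cast.comp hc

theorem pow_sub_pow_le_aux {A B : ℝ} (hB : 0 ≤ B) (hBA : B ≤ A) (hA : A ≤ 1) (k : ℕ) :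
    A ^ k - B ^ k ≤ k * (A - B) := by
  induction k with
  | zero => simp
  | succ k ih =>
    have hA0 : 0 ≤ A := hB.trans hBA
    have h1 : A ^ k ≤ 1 := pow_le_one₀ hA0 hA
    have h2 : B ^ k ≤ A ^ k := pow_le_pow_left₀ hB hBA k
    have h3 : B ^ k ≤ 1 := h2.trans h1
    have h4 : 0 ≤ B ^ k := pow_nonneg hB k
    have h5 : A ^ (k + 1) - B ^ (k + 1) = A * (A ^ k - B ^ k) + B ^ k * (A - B) := by ring
    rw [h5]
    push_cast
    have h6 : A * (A ^ k - B ^ k) ≤ 1 * (A ^ k - B ^ k) :=
      mul_le_mul_of_nonneg_right hA (by linarith)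
    have h7 : B ^ k * (A - B) ≤ 1 * (A - B) :=
      mul_le_mul_of_nonneg_right h3 (by linarith)
    nlinarith

theorem expApprox_spec (t : ℚ) (ht : 0 ≤ t) (n : ℕ) :
    |Real.exp (-(t : ℝ)) - (expApprox t n : ℝ)| ≤ 1 / ((n : ℝ) + 1) := by
  set x : ℝ := (t : ℝ) with hx
  have hx0 : 0 ≤ x := by rw [hx]; exact_mod_cast ht
  set c : ℕ := ratCeil t with hc
  have hc1 : 1 ≤ c := by rw [hc]; unfold ratCeil; omega
  have hxc : x ≤ c := by
    have := abs_le_ratCeil t
    rw [abs_of_nonneg ht] at this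
    rw [hx]
    exact_mod_cast this
  set N : ℕ := c ^ 2 * (n + 1) with hN
  have hNpos : 0 < N := by positivity
  have hNR : (N : ℝ) = (c : ℝ) ^ 2 * ((n : ℝ) + 1) := by rw [hN]; push_cast; ring
  have hcR : (1 : ℝ) ≤ c := by exact_mod_cast hc1
  have hNR0 : (0 : ℝ) < N := by exact_mod_cast hNpos
  have hn0 : (0 : ℝ) ≤ n := Nat.cast_nonneg n
  have hxN : x ≤ N := by
    rw [hNR]; nlinarith
  have hE : ((expApprox t n : ℚ) : ℝ) = (1 - x / (N : ℝ)) ^ N := by
    unfold expApprox
    push_cast
    rw [← hc, hNR]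
  rw [hE]
  set y : ℝ := x / N with hy
  have hy0 : 0 ≤ y := div_nonneg hx0 hNR0.le
  have hy1 : y ≤ 1 := (div_le_one hNR0).2 hxN
  set B := 1 - y with hB
  set A := Real.exp (-y) with hA
  have hB0 : 0 ≤ B := by rw [hB]; linarith
  have hBA : B ≤ A := by
    rw [hA, hB]
    have := Real.add_one_le_exp (-y)
    linarith
  have hA1 : A ≤ 1 := by
    rw [hA]; exact Real.exp_le_one_iff.2 (by linarith)
  have hexp : Real.exp (-x) = A ^ N := by
    rw [hA, ← Real.exp_nat_mul]
    congr 1
    rw [hy]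
    field_simp
  rw [hexp]
  have h1 := pow_sub_pow_le_aux hB0 hBA hA1 N
  have h2 : A - B ≤ y ^ 2 := by
    -- exp(-y) ≤ 1/(1+y)
    have h3 : A * (1 + y) ≤ 1 := by
      have h4 := Real.add_one_le_exp y
      have h5 : Real.exp (-y) * Real.exp y = 1 := by rw [← Real.exp_add]; simp
      have h6 : 0 < Real.exp (-y) := Real.exp_pos _
      calc A * (1 + y) ≤ Real.exp (-y) * Real.exp y :=
            mul_le_mul_of_nonneg_left (by linarith) h6.le
        _ = 1 := h5
    rw [hB]
    nlinarith [sq_nonneg y]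
  have h3 : A ^ N - B ^ N ≤ 1 / ((n : ℝ) + 1) := by
    calc A ^ N - B ^ N ≤ N * (A - B) := h1
      _ ≤ N * y ^ 2 := mul_le_mul_of_nonneg_left h2 hNR0.le
      _ = x ^ 2 / N := by rw [hy]; field_simp
      _ ≤ (c : ℝ) ^ 2 / N := by
          apply div_le_div_of_nonneg_right _ hNR0.le
          exact pow_le_pow_left₀ hx0 hxc 2
      _ = 1 / ((n : ℝ) + 1) := by rw [hNR]; field_simp
  have h4 : B ^ N ≤ A ^ N := pow_le_pow_left₀ hB0 hBA N
  rw [abs_of_nonneg (by linarith)]
  exact h3

end Crest.Agent.Lib.BF
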