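import Mathlib
import Crest.Prelude.Def_BoxFlow

/-!
Global flows of smooth compactly supported fields that vanish outside the time interval
`[1/4, 3/4]`, and uniqueness of solutions.
-/

namespace Crest.Agent.Lib.BF

open Crest.AnalysisR.BoxFlow Set Metric
open scoped ContDiff NNReal

theorem field_lipschitz {U : Field} (hU : ContDiff ℝ ∞ U) (hc : HasCompactSupport U) :
    ∃ K : ℝ≥0, ∀ t, LipschitzWith K (fun x => U (t, x)) := by
  obtain ⟨K, hK⟩ := ContDiff.lipschitzWith_of_hasCompactSupport (𝕂 := ℝ) hc hU (by simp)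
  refine ⟨K, fun t => ?_⟩
  have := hK.comp (LipschitzWith.prodMk_left (α := ℝ) (β := Fin 3 → ℝ) t)
  have h2 : LipschitzWith K (U ∘ Prod.mk t) := by simpa using this
  exact h2

theorem exists_solution {U : Field} (hU : ContDiff ℝ ∞ U) (hc : HasCompactSupport U)
    (ht : ∀ p : ℝ × (Fin 3 → ℝ), p.1 ∉ Icc (1 / 4 : ℝ) (3 / 4) → U p = 0) (x₀ : Fin 3 → ℝ) :
    ∃ β : ℝ → (Fin 3 → ℝ), β 0 = x₀ ∧ ∀ t, HasDerivAt β (U (t, β t)) t := by
  obtain ⟨K, hK⟩ := field_lipschitz hU hc
  obtain ⟨C, hC⟩ := hc.exists_bound_of_continuous hU.continuous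
  let L : ℝ≥0 := ⟨max C 0, le_max_right _ _⟩
  have hL : ∀ p, ‖U p‖ ≤ (L : ℝ) := fun p => (hC p).trans (le_max_left _ _)
  have hPL : IsPicardLindelof (fun t x => U (t, x)) (tmin := 0) (tmax := 1)
      ⟨0, by simp⟩ x₀ L 0 L K := by
    refine ⟨?_, ?_, ?_, ?_⟩
    · intro t _
      exact (hK t).lipschitzOnWith
    · intro x _
      exact (hU.continuous.comp (continuous_id.prodMk continuous_const)).continuousOn
    · intro t _ x _
      exact hL _
    · simp
  obtain ⟨α, hα0, hα⟩ := hPL.exists_eq_forall_mem_Icc_hasDerivWithinAt₀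
  simp only at hα0
  have hcont : ContinuousOn α (Icc 0 1) := fun t ht => (hα t ht).continuousWithinAt
  have hright : ∀ x ∈ Ico (0 : ℝ) 1, HasDerivWithinAt α (U (x, α x)) (Ici x) x := by
    intro x hx
    exact (hα x (Ico_subset_Icc_self hx)).mono_of_mem_nhdsWithin
      (Icc_mem_nhdsGE_of_mem ⟨hx.1, hx.2⟩)
  have c1 : ∀ t ∈ Icc (0 : ℝ) (1 / 4), α t = x₀ := by
    intro t ht'
    rw [← hα0]
    refine constant_of_has_deriv_right_zero (hcont.mono (Icc_subset_Icc_right (by norm_num))) ?_ t ht'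
    intro x hx
    have h1 := hright x ⟨hx.1, by linarith [hx.2]⟩
    have h2 : U (x, α x) = 0 := ht (x, α x) (fun h => absurd h.1 (not_le.2 hx.2))
    rwa [h2] at h1
  have c2 : ∀ c ∈ Ioo (3 / 4 : ℝ) 1, α c = α 1 := by
    intro c hc'
    have := constant_of_has_deriv_right_zero (f := α) (a := c) (b := 1)
      (hcont.mono (Icc_subset_Icc_left (by linarith [hc'.1]))) (by
        intro x hx
        have h1 := hright x ⟨by linarith [hc'.1, hx.1], hx.2⟩
        have h2 : U (x, α x) = 0 := ht (x, α x) (fun h => absurd h.2 (not_le.2 (by linarith [hc'.1, hx.1])))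
        rwa [h2] at h1) 1 ⟨hc'.2.le, le_rfl⟩
    exact this.symm
  refine ⟨fun t => α (max 0 (min t 1)), ?_, ?_⟩
  · simp [hα0]
  intro t
  rcases lt_or_ge t (1 / 4) with h1 | h1
  · -- constant near t
    have hev : (fun s => α (max 0 (min s 1))) =ᶠ[nhds t] fun _ => x₀ := by
      filter_upwards [Iio_mem_nhds h1] with s hs
      have hs' : s < 1 / 4 := hs
      refine c1 _ ⟨le_max_left _ _, ?_⟩
      refine max_le (by norm_num) ((min_le_left _ _).trans hs'.le)
    have h2 : U (t, α (max 0 (min t 1))) = 0 :=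
      ht _ (fun h => absurd h.1 (not_le.2 h1))
    rw [h2]
    exact (hasDerivAt_const t x₀).congr_of_eventuallyEq hev
  rcases lt_or_ge (3 / 4) t with h2 | h2
  · have hev : (fun s => α (max 0 (min s 1))) =ᶠ[nhds t] fun _ => α 1 := by
      filter_upwards [Ioi_mem_nhds h2] with s hs
      have hs' : 3 / 4 < s := hs
      rcases lt_or_ge s 1 with h3 | h3
      · have : max 0 (min s 1) = s := by
          rw [min_eq_left h3.le, max_eq_right (by linarith)]
        simp only [this]
        exact c2 s ⟨hs', h3⟩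
      · have : max 0 (min s 1) = 1 := by
          rw [min_eq_right h3, max_eq_right (by norm_num)]
        simp only [this]
    have h3 : U (t, α (max 0 (min t 1))) = 0 :=
      ht _ (fun h => absurd h.2 (not_le.2 h2))
    rw [h3]
    exact (hasDerivAt_const t (α 1)).congr_of_eventuallyEq hev
  · have ht0 : 0 < t := by linarith
    have ht1 : t < 1 := by linarith
    have hcl : max 0 (min t 1) = t := by
      rw [min_eq_left ht1.le, max_eq_right ht0.le]
    have hev : (fun s => α (max 0 (min s 1))) =ᶠ[nhds t] α := by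
      filter_upwards [Ioo_mem_nhds ht0 ht1] with s hs
      have : max 0 (min s 1) = s := by
        rw [min_eq_left hs.2.le, max_eq_right hs.1.le]
      simp only [this]
    show HasDerivAt _ (U (t, α (max 0 (min t 1)))) t
    rw [hcl]
    have h3 := (hα t ⟨ht0.le, ht1.le⟩).hasDerivAt (Icc_mem_nhds ht0 ht1)
    exact h3.congr_of_eventuallyEq hev

theorem solution_unique {U : Field} (hU : ContDiff ℝ ∞ U) (hc : HasCompactSupport U)
    {f g : ℝ → (Fin 3 → ℝ)} (hf : ∀ t, HasDerivAt f (U (t, f t)) t)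
    (hg : ∀ t, HasDerivAt g (U (t, g t)) t) (h0 : f 0 = g 0) : f 1 = g 1 := by
  obtain ⟨K, hK⟩ := field_lipschitz hU hc
  have := ODE_solution_unique (v := fun t x => U (t, x)) (K := K) (f := f) (g := g) (a := 0) (b := 1)
    hK (fun t _ => (hf t).continuousAt.continuousWithinAt) (fun t _ => (hf t).hasDerivWithinAt)
    (fun t _ => (hg t).continuousAt.continuousWithinAt) (fun t _ => (hg t).hasDerivWithinAt) h0
  exact this ⟨zero_le_one, le_rfl⟩

theorem exists_flow {U : Field} (hU : ContDiff ℝ ∞ U) (hc : HasCompactSupport U)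
    (ht : ∀ p : ℝ × (Fin 3 → ℝ), p.1 ∉ Icc (1 / 4 : ℝ) (3 / 4) → U p = 0) :
    ∃ Φ : ℝ → (Fin 3 → ℝ) → (Fin 3 → ℝ), IsFlow U Φ ∧
      ∀ (x : Fin 3 → ℝ) (γ : ℝ → (Fin 3 → ℝ)), γ 0 = x → (∀ t, HasDerivAt γ (U (t, γ t)) t) →
        Φ 1 x = γ 1 := by
  choose β hβ0 hβ using exists_solution hU hc ht
  refine ⟨fun t x => β x t, ⟨hβ0, fun t x => hβ x t⟩, ?_⟩
  intro x γ hγ0 hγ
  exact solution_unique hU hc (hβ x) hγ (by rw [hβ0, hγ0])

end Crest.Agent.Lib.BF
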