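import Mathlib
import Crest.Agent.Lib.BF.CompReal

/-!
The smooth step `Real.smoothTransition`: computable values at rational points, and a
computable bound for all its derivatives.
-/

namespace Crest.Agent.Lib.BF

open Computable Finset

/-- the smooth step -/
noncomputable abbrev sst : ℝ → ℝ := Real.smoothTransition

theorem sst_nonneg (x : ℝ) : 0 ≤ sst x := Real.smoothTransition.nonneg x
theorem sst_le_one (x : ℝ) : sst x ≤ 1 := Real.smoothTransition.le_one x
theorem sst_of_nonpos {x : ℝ} (h : x ≤ 0) : sst x = 0 := Real.smoothTransition.zero_of_nonpos h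
theorem sst_of_one_le {x : ℝ} (h : 1 ≤ x) : sst x = 1 := Real.smoothTransition.one_of_one_le h
theorem sst_contDiff {n : ℕ∞} : ContDiff ℝ n sst := Real.smoothTransition.contDiff

theorem sst_eq {x : ℝ} (h0 : 0 < x) (h1 : x < 1) :
    sst x = Real.exp (-x⁻¹) / (Real.exp (-x⁻¹) + Real.exp (-(1 - x)⁻¹)) := by
  unfold sst Real.smoothTransition expNegInvGlue
  rw [if_neg (not_le.2 h0), if_neg (not_le.2 (by linarith : 0 < 1 - x))]

theorem exp_sum_lb {x : ℝ} (h0 : 0 < x) (h1 : x < 1) :
    1 / 8 ≤ Real.exp (-x⁻¹) + Real.exp (-(1 - x)⁻¹) := by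
  have he : Real.exp (-2) ≥ 1 / 8 := by
    rw [Real.exp_neg]
    have h2 : Real.exp 2 ≤ 8 := by
      have : Real.exp 2 = Real.exp 1 ^ 2 := by rw [← Real.exp_nat_mul]; norm_num
      rw [this]
      have h3 := Real.exp_one_lt_d9
      have h4 := Real.exp_pos 1
      nlinarith
    have h5 := Real.exp_pos 2
    rw [ge_iff_le, one_div]
    exact inv_anti₀ h5 h2
  have ha := Real.exp_pos (-x⁻¹)
  have hb := Real.exp_pos (-(1 - x)⁻¹)
  rcases le_total x (1 / 2) with h | h
  · have h2 : (1 - x)⁻¹ ≤ 2 := by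
      rw [inv_le_comm₀ (by linarith) (by norm_num)]
      linarith
    have h3 : Real.exp (-2) ≤ Real.exp (-(1 - x)⁻¹) := Real.exp_le_exp.2 (by linarith)
    linarith
  · have h2 : x⁻¹ ≤ 2 := by
      rw [inv_le_comm₀ (by linarith) (by norm_num)]
      linarith
    have h3 : Real.exp (-2) ≤ Real.exp (-x⁻¹) := Real.exp_le_exp.2 (by linarith)
    linarith

/-! ### values at rational points -/

/-- working precision -/
def precM (n : ℕ) : ℕ := 256 * (n + 1)

/-- approximation of the smooth step at a rational point -/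
def sstApprox (q : ℚ) (n : ℕ) : ℚ :=
  if q ≤ 0 then 0 else if 1 ≤ q then 1 else
    expApprox q⁻¹ (precM n) /
      (expApprox q⁻¹ (precM n) + expApprox (1 - q)⁻¹ (precM n))

theorem computable_sstApprox : Computable (fun p : ℚ × ℕ => sstApprox p.1 p.2) := by
  have hM : Computable (fun p : ℚ × ℕ => precM p.2) :=
    Primrec.nat_mul.to_comp.comp (Computable.const 256) (Computable.succ.comp Computable.snd)
  have hA : Computable (fun p : ℚ × ℕ => expApprox p.1⁻¹ (precM p.2)) :=
    computable_expApprox.comp (computable_rat_inv.comp Computable.fst) hM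
  have hB : Computable (fun p : ℚ × ℕ => expApprox (1 - p.1)⁻¹ (precM p.2)) :=
    computable_expApprox.comp (computable_rat_inv.comp
      (computable_rat_sub (Computable.const 1) Computable.fst)) hM
  have hC : Computable (fun p : ℚ × ℕ => expApprox p.1⁻¹ (precM p.2) /
      (expApprox p.1⁻¹ (precM p.2) + expApprox (1 - p.1)⁻¹ (precM p.2))) :=
    computable_rat_div hA (computable_rat_add.comp hA hB)
  have h1 : Computable (fun p : ℚ × ℕ => decide (p.1 ≤ 0)) :=
    computable_decide_le Computable.fst (Computable.const 0)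
  have h2 : Computable (fun p : ℚ × ℕ => decide (1 ≤ p.1)) :=
    computable_decide_le (Computable.const 1) Computable.fst
  have := Computable.cond h1 (Computable.const (0 : ℚ))
    (Computable.cond h2 (Computable.const (1 : ℚ)) hC)
  refine this.of_eq ?_
  rintro ⟨q, n⟩
  simp only [sstApprox]
  by_cases h : q ≤ 0
  · simp [h]
  · by_cases h' : 1 ≤ q
    · simp [h, h']
    · simp [h, h']

theorem sstApprox_spec (q : ℚ) (n : ℕ) :
    |sst q - (sstApprox q n : ℝ)| ≤ 1 / ((n : ℝ) + 1) := by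
  unfold sstApprox
  have hn : (0 : ℝ) < 1 / ((n : ℝ) + 1) := one_div_succ_pos n
  by_cases h : q ≤ 0
  · rw [if_pos h, sst_of_nonpos (by exact_mod_cast h)]
    simpa using hn.le
  rw [if_neg h]
  by_cases h' : 1 ≤ q
  · rw [if_pos h', sst_of_one_le (by exact_mod_cast h')]
    simpa using hn.le
  rw [if_neg h']
  have hq0 : (0 : ℚ) < q := not_le.1 h
  have hq1 : q < 1 := not_le.1 h'
  have hq0R : (0 : ℝ) < q := by exact_mod_cast hq0
  have hq1R : (q : ℝ) < 1 := by exact_mod_cast hq1
  set M : ℕ := precM n with hM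
  have ha := expApprox_spec q⁻¹ (inv_nonneg.2 hq0.le) M
  have hb := expApprox_spec (1 - q)⁻¹ (inv_nonneg.2 (by linarith)) M
  push_cast at ha hb ⊢
  rw [sst_eq hq0R hq1R]
  set a := Real.exp (-(q : ℝ)⁻¹) with ha'
  set b := Real.exp (-(1 - (q : ℝ))⁻¹) with hb'
  set A : ℝ := ((expApprox q⁻¹ M : ℚ) : ℝ) with hA
  set B : ℝ := ((expApprox (1 - q)⁻¹ M : ℚ) : ℝ) with hB
  have hab := exp_sum_lb hq0R hq1R
  rw [← ha', ← hb'] at hab
  have ha0 : 0 < a := Real.exp_pos _
  have hb0 : 0 < b := Real.exp_pos _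
  set ε := 1 / ((M : ℝ) + 1) with hε
  have hMR : (M : ℝ) = 256 * ((n : ℝ) + 1) := by rw [hM, precM]; push_cast; ring
  clear_value M
  clear hM
  have hn0 : (0 : ℝ) ≤ n := Nat.cast_nonneg n
  have hεpos : 0 < ε := one_div_succ_pos M
  have hε1 : ε ≤ 1 / 256 := by
    rw [hε, hMR]
    apply one_div_le_one_div_of_le (by norm_num)
    linarith
  have hε2 : 16 * ε ≤ 1 / ((n : ℝ) + 1) := by
    rw [hε, hMR, mul_one_div, div_le_div_iff₀ (by positivity) (by positivity)]
    linarith
  have hAB : 1 / 16 ≤ A + B := by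
    have h1 := abs_le.1 ha
    have h2 := abs_le.1 hb
    linarith [h1.2, h2.2]
  have hABpos : 0 < A + B := by linarith
  have habpos : 0 < a + b := by linarith
  have key3 : a / (a + b) - A / (A + B) = ((a - A) * b - a * (b - B)) / ((a + b) * (A + B)) := by
    field_simp
    ring
  rw [key3, abs_div, abs_of_pos (mul_pos habpos hABpos)]
  have h1 : |(a - A) * b - a * (b - B)| ≤ ε * (a + b) := by
    calc |(a - A) * b - a * (b - B)| ≤ |(a - A) * b| + |a * (b - B)| := abs_sub _ _
      _ = |a - A| * b + a * |b - B| := by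
          rw [abs_mul, abs_mul, abs_of_pos hb0, abs_of_pos ha0]
      _ ≤ ε * b + a * ε := by
          refine add_le_add ?_ ?_
          · exact mul_le_mul_of_nonneg_right ha hb0.le
          · exact mul_le_mul_of_nonneg_left hb ha0.le
      _ = ε * (a + b) := by ring
  calc |(a - A) * b - a * (b - B)| / ((a + b) * (A + B))
      ≤ (ε * (a + b)) / ((a + b) * (A + B)) :=
        div_le_div_of_nonneg_right h1 (mul_pos habpos hABpos).le
    _ = ε / (A + B) := by field_simp
    _ ≤ 16 * ε := by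
        rw [div_le_iff₀ hABpos]
        have := mul_le_mul_of_nonneg_left hAB (by positivity : 0 ≤ 16 * ε)
        linarith
    _ ≤ 1 / ((n : ℝ) + 1) := hε2

theorem sst_compReal : CompReal (fun q : ℚ => sst q) :=
  ⟨fun p => sstApprox p.1 p.2, computable_sstApprox, fun q n => sstApprox_spec q n⟩

/-! ### derivatives -/

/-- the derivative of the smooth step on `(0,1)` -/
theorem sst_hasDerivAt {x : ℝ} (h0 : 0 < x) (h1 : x < 1) :
    HasDerivAt sst ((x⁻¹ ^ 2 + (1 - x)⁻¹ ^ 2) * (sst x * (1 - sst x))) x := by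
  have hx0 : x ≠ 0 := h0.ne'
  have hx1 : 1 - x ≠ 0 := by linarith
  have hA : HasDerivAt (fun y : ℝ => Real.exp (-y⁻¹)) (Real.exp (-x⁻¹) * x⁻¹ ^ 2) x := by
    have h2 : HasDerivAt (fun y : ℝ => -y⁻¹) (x⁻¹ ^ 2) x := by
      have := (hasDerivAt_inv hx0).fun_neg
      rw [neg_neg, ← inv_pow] at this
      exact this
    exact h2.exp
  have hB : HasDerivAt (fun y : ℝ => Real.exp (-(1 - y)⁻¹)) (Real.exp (-(1 - x)⁻¹) * (-(1 - x)⁻¹ ^ 2)) x := by
    have h2 : HasDerivAt (fun y : ℝ => -(1 - y)⁻¹) (-(1 - x)⁻¹ ^ 2) x := by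
      have h3 : HasDerivAt (fun y : ℝ => 1 - y) (-1) x := by
        simpa using (hasDerivAt_id x).const_sub 1
      have := (h3.fun_inv hx1).fun_neg
      refine this.congr_deriv ?_
      field_simp
    exact h2.exp
  set a := Real.exp (-x⁻¹) with ha
  set b := Real.exp (-(1 - x)⁻¹) with hb
  have ha0 : 0 < a := Real.exp_pos _
  have hb0 : 0 < b := Real.exp_pos _
  have hdiv := hA.fun_div (hA.fun_add hB) (by positivity : a + b ≠ 0)
  have hev : sst =ᶠ[nhds x] (fun y : ℝ => Real.exp (-y⁻¹) / (Real.exp (-y⁻¹) + Real.exp (-(1 - y)⁻¹))) := by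
    filter_upwards [Ioo_mem_nhds h0 h1] with y hy
    exact sst_eq hy.1 hy.2
  refine (hdiv.congr_of_eventuallyEq hev).congr_deriv ?_
  rw [sst_eq h0 h1, ← ha, ← hb]
  field_simp
  ring

/-- a monomial in `u = 1/x`, `v = 1/(1-x)`, `s`, with the factor `s(1-s)`. -/
noncomputable def Mon (i j l : ℕ) (x : ℝ) : ℝ :=
  x⁻¹ ^ i * (1 - x)⁻¹ ^ j * sst x ^ l * (sst x * (1 - sst x))

theorem hasDerivAt_inv_pow (i : ℕ) {x : ℝ} (h0 : x ≠ 0) :
    HasDerivAt (fun y : ℝ => y⁻¹ ^ i) (-(i : ℝ) * x⁻¹ ^ (i + 1)) x := by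
  cases i with
  | zero => simpa using hasDerivAt_const x (1 : ℝ)
  | succ i =>
    have := (hasDerivAt_inv h0).fun_pow (i + 1)
    refine this.congr_deriv ?_
    simp only [Nat.add_sub_cancel]
    push_cast
    ring

theorem hasDerivAt_inv_sub_pow (j : ℕ) {x : ℝ} (h1 : 1 - x ≠ 0) :
    HasDerivAt (fun y : ℝ => (1 - y)⁻¹ ^ j) ((j : ℝ) * (1 - x)⁻¹ ^ (j + 1)) x := by
  have h3 : HasDerivAt (fun y : ℝ => 1 - y) (-1) x := by
    simpa using (hasDerivAt_id x).const_sub 1
  cases j with
  | zero => simpa using hasDerivAt_const x (1 : ℝ)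
  | succ j =>
    have := (h3.fun_inv h1).fun_pow (j + 1)
    refine this.congr_deriv ?_
    simp only [Nat.add_sub_cancel]
    have e : (- -1 : ℝ) / (1 - x) ^ 2 = (1 - x)⁻¹ ^ 2 := by rw [neg_neg, one_div, inv_pow]
    rw [e]
    push_cast
    ring

theorem hasDerivAt_sst_pow (l : ℕ) {x : ℝ} (h0 : 0 < x) (h1 : x < 1) :
    HasDerivAt (fun y : ℝ => sst y ^ l)
      ((l : ℝ) * sst x ^ l * (1 - sst x) * (x⁻¹ ^ 2 + (1 - x)⁻¹ ^ 2)) x := by
  cases l with
  | zero => simpa using hasDerivAt_const x (1 : ℝ)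
  | succ l =>
    have := (sst_hasDerivAt h0 h1).fun_pow (l + 1)
    refine this.congr_deriv ?_
    push_cast
    ring

theorem Mon_hasDerivAt (i j l : ℕ) {x : ℝ} (h0 : 0 < x) (h1 : x < 1) :
    HasDerivAt (Mon i j l)
      (-(i : ℝ) * Mon (i + 1) j l x + (j : ℝ) * Mon i (j + 1) l x
        + ((l : ℝ) + 1) * Mon (i + 2) j l x + ((l : ℝ) + 1) * Mon i (j + 2) l x
        - ((l : ℝ) + 2) * Mon (i + 2) j (l + 1) x - ((l : ℝ) + 2) * Mon i (j + 2) (l + 1) x) x := by
  have hU := hasDerivAt_inv_pow i h0.ne'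
  have hV := hasDerivAt_inv_sub_pow j (by linarith : 1 - x ≠ 0)
  have hS := hasDerivAt_sst_pow l h0 h1
  have hs := sst_hasDerivAt h0 h1
  have hW : HasDerivAt (fun y : ℝ => sst y * (1 - sst y))
      ((x⁻¹ ^ 2 + (1 - x)⁻¹ ^ 2) * (sst x * (1 - sst x)) * (1 - sst x)
        + sst x * (-((x⁻¹ ^ 2 + (1 - x)⁻¹ ^ 2) * (sst x * (1 - sst x))))) x :=
    hs.fun_mul (by simpa using hs.const_sub 1)
  have hP := ((hU.fun_mul hV).fun_mul hS).fun_mul hW
  have e : Mon i j l = fun y => y⁻¹ ^ i * (1 - y)⁻¹ ^ j * sst y ^ l * (sst y * (1 - sst y)) := rfl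
  rw [e]
  unfold Mon
  refine hP.congr_deriv ?_
  ring

/-- a term: coefficient and exponents -/
abbrev Tm := ℝ × ℕ × ℕ × ℕ

/-- evaluation of a list of terms -/
noncomputable def evalL (L : List Tm) (x : ℝ) : ℝ :=
  (L.map (fun t => t.1 * Mon t.2.1 t.2.2.1 t.2.2.2 x)).sum

/-- the derivative of one term -/
noncomputable def dTerm (t : Tm) : List Tm :=
  [(-t.1 * t.2.1, t.2.1 + 1, t.2.2.1, t.2.2.2),
   (t.1 * t.2.2.1, t.2.1, t.2.2.1 + 1, t.2.2.2),
   (t.1 * (t.2.2.2 + 1), t.2.1 + 2, t.2.2.1, t.2.2.2),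
   (t.1 * (t.2.2.2 + 1), t.2.1, t.2.2.1 + 2, t.2.2.2),
   (-t.1 * (t.2.2.2 + 2), t.2.1 + 2, t.2.2.1, t.2.2.2 + 1),
   (-t.1 * (t.2.2.2 + 2), t.2.1, t.2.2.1 + 2, t.2.2.2 + 1)]

/-- the derivative of a list of terms -/
noncomputable def dL (L : List Tm) : List Tm := L.flatMap dTerm

/-- sum of the absolute values of the coefficients -/
noncomputable def normL (L : List Tm) : ℝ := (L.map (fun t => |t.1|)).sum

theorem evalL_hasDerivAt (L : List Tm) {x : ℝ} (h0 : 0 < x) (h1 : x < 1) :
    HasDerivAt (evalL L) (evalL (dL L) x) x := by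
  induction L with
  | nil =>
    have e : evalL [] = fun _ => (0 : ℝ) := by funext y; simp [evalL]
    have e2 : evalL (dL []) x = 0 := by simp [evalL, dL]
    rw [e, e2]
    exact hasDerivAt_const x 0
  | cons t L ih =>
    have hT := (Mon_hasDerivAt t.2.1 t.2.2.1 t.2.2.2 h0 h1).const_mul t.1
    have h2 := hT.fun_add ih
    have e1 : evalL (t :: L) = fun y => t.1 * Mon t.2.1 t.2.2.1 t.2.2.2 y + evalL L y := by
      funext y; simp [evalL]
    rw [e1]
    refine h2.congr_deriv ?_
    simp only [dL, List.flatMap_cons, evalL, List.map_append, List.sum_append, dTerm, List.map_cons,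
      List.map_nil, List.sum_cons, List.sum_nil]
    ring

/-- the degree condition -/
def DegOK (k : ℕ) (L : List Tm) : Prop :=
  ∀ t ∈ L, t.2.1 + t.2.2.1 ≤ 2 * (k + 1) ∧ t.2.2.2 ≤ k

theorem DegOK_dL {k : ℕ} {L : List Tm} (h : DegOK k L) : DegOK (k + 1) (dL L) := by
  intro t ht
  simp only [dL, List.mem_flatMap] at ht
  obtain ⟨t', ht', htt⟩ := ht
  have h1 := h t' ht'
  simp only [dTerm, List.mem_cons, List.not_mem_nil, or_false] at htt
  rcases htt with rfl | rfl | rfl | rfl | rfl | rfl <;> simp only <;> omega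

theorem normL_nonneg (L : List Tm) : 0 ≤ normL L := by
  unfold normL
  apply List.sum_nonneg
  intro x hx
  simp only [List.mem_map] at hx
  obtain ⟨t, _, rfl⟩ := hx
  exact abs_nonneg _

theorem normL_dL {k : ℕ} {L : List Tm} (h : DegOK k L) :
    normL (dL L) ≤ (6 * (k : ℝ) + 8) * normL L := by
  induction L with
  | nil => simp [normL, dL]
  | cons t L ih =>
    have h1 : DegOK k L := fun t' ht' => h t' (List.mem_cons_of_mem _ ht')
    have h2 := ih h1
    have h3 := h t List.mem_cons_self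
    have e1 : normL (dL (t :: L)) = normL (dTerm t) + normL (dL L) := by
      simp [normL, dL]
    have e2 : normL (t :: L) = |t.1| + normL L := by
      simp [normL]
    rw [e1, e2]
    have h4 : normL (dTerm t) ≤ (6 * (k : ℝ) + 8) * |t.1| := by
      simp only [normL, dTerm, List.map_cons, List.map_nil, List.sum_cons, List.sum_nil]
      have hA : |(-t.1 * (t.2.1 : ℝ))| = |t.1| * t.2.1 := by
        rw [abs_mul, abs_neg, Nat.abs_cast]
      have hB : |(t.1 * (t.2.2.1 : ℝ))| = |t.1| * t.2.2.1 := by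
        rw [abs_mul, Nat.abs_cast]
      have hC : |(t.1 * ((t.2.2.2 : ℝ) + 1))| = |t.1| * ((t.2.2.2 : ℝ) + 1) := by
        rw [abs_mul, abs_of_nonneg (by positivity : (0 : ℝ) ≤ (t.2.2.2 : ℝ) + 1)]
      have hD : |(-t.1 * ((t.2.2.2 : ℝ) + 2))| = |t.1| * ((t.2.2.2 : ℝ) + 2) := by
        rw [abs_mul, abs_neg, abs_of_nonneg (by positivity : (0 : ℝ) ≤ (t.2.2.2 : ℝ) + 2)]
      rw [hA, hB, hC, hD]
      have h5 : (t.2.1 : ℝ) + t.2.2.1 ≤ 2 * ((k : ℝ) + 1) := by exact_mod_cast h3.1
      have h6 : (t.2.2.2 : ℝ) ≤ k := by exact_mod_cast h3.2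
      have h7 := abs_nonneg t.1
      nlinarith [mul_le_mul_of_nonneg_left h5 h7, mul_le_mul_of_nonneg_left h6 h7]
    calc normL (dTerm t) + normL (dL L) ≤ (6 * (k : ℝ) + 8) * |t.1| + (6 * (k : ℝ) + 8) * normL L :=
          add_le_add h4 h2
      _ = (6 * (k : ℝ) + 8) * (|t.1| + normL L) := by ring

theorem Mon_bound (i j l : ℕ) {x : ℝ} (h0 : 0 < x) (h1 : x < 1) :
    |Mon i j l x| ≤ 81 * (i.factorial * j.factorial) := by
  set a := Real.exp (-x⁻¹) with ha
  set b := Real.exp (-(1 - x)⁻¹) with hb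
  have ha0 : 0 < a := Real.exp_pos _
  have hb0 : 0 < b := Real.exp_pos _
  have hab := exp_sum_lb h0 h1
  rw [← ha, ← hb] at hab
  have hu : 0 ≤ x⁻¹ := inv_nonneg.2 h0.le
  have hv : 0 ≤ (1 - x)⁻¹ := inv_nonneg.2 (by linarith)
  have hs0 := sst_nonneg x
  have hs1 := sst_le_one x
  have hi : x⁻¹ ^ i * a ≤ i.factorial := by
    have h2 := Real.pow_div_factorial_le_exp x⁻¹ hu i
    have h3 : (0 : ℝ) < i.factorial := by exact_mod_cast i.factorial_pos
    have h4 : a * Real.exp x⁻¹ = 1 := by rw [ha, ← Real.exp_add]; simp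
    rw [div_le_iff₀ h3] at h2
    calc x⁻¹ ^ i * a ≤ (Real.exp x⁻¹ * i.factorial) * a := mul_le_mul_of_nonneg_right h2 ha0.le
      _ = (a * Real.exp x⁻¹) * i.factorial := by ring
      _ = i.factorial := by rw [h4, one_mul]
  have hj : (1 - x)⁻¹ ^ j * b ≤ j.factorial := by
    have h2 := Real.pow_div_factorial_le_exp (1 - x)⁻¹ hv j
    have h3 : (0 : ℝ) < j.factorial := by exact_mod_cast j.factorial_pos
    have h4 : b * Real.exp (1 - x)⁻¹ = 1 := by rw [hb, ← Real.exp_add]; simp
    rw [div_le_iff₀ h3] at h2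
    calc (1 - x)⁻¹ ^ j * b ≤ (Real.exp (1 - x)⁻¹ * j.factorial) * b := mul_le_mul_of_nonneg_right h2 hb0.le
      _ = (b * Real.exp (1 - x)⁻¹) * j.factorial := by ring
      _ = j.factorial := by rw [h4, one_mul]
  have hsx : sst x = a / (a + b) := sst_eq h0 h1
  have hs' : sst x * (1 - sst x) = (a * b) / (a + b) ^ 2 := by
    rw [hsx]
    field_simp
    ring
  have hpos : 0 < a + b := by linarith
  have hinv : 1 / (a + b) ^ 2 ≤ 81 := by
    rw [div_le_iff₀ (by positivity)]
    nlinarith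
  unfold Mon
  have hl : sst x ^ l ≤ 1 := pow_le_one₀ hs0 hs1
  have hl0 : 0 ≤ sst x ^ l := pow_nonneg hs0 l
  have hw : 0 ≤ sst x * (1 - sst x) := mul_nonneg hs0 (by linarith)
  rw [abs_of_nonneg (by positivity)]
  have hI : (0 : ℝ) ≤ i.factorial := Nat.cast_nonneg _
  have hJ : (0 : ℝ) ≤ j.factorial := Nat.cast_nonneg _
  have hUV : 0 ≤ x⁻¹ ^ i * (1 - x)⁻¹ ^ j := by positivity
  calc x⁻¹ ^ i * (1 - x)⁻¹ ^ j * sst x ^ l * (sst x * (1 - sst x))
      ≤ x⁻¹ ^ i * (1 - x)⁻¹ ^ j * 1 * (sst x * (1 - sst x)) := by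
        apply mul_le_mul_of_nonneg_right _ hw
        exact mul_le_mul_of_nonneg_left hl hUV
    _ = (x⁻¹ ^ i * a) * ((1 - x)⁻¹ ^ j * b) * (1 / (a + b) ^ 2) := by
        rw [hs']; ring
    _ ≤ (i.factorial * j.factorial) * 81 := by
        apply mul_le_mul _ hinv (by positivity) (by positivity)
        exact mul_le_mul hi hj (by positivity) hI
    _ = 81 * (i.factorial * j.factorial) := by ring

theorem evalL_bound {k : ℕ} {L : List Tm} (h : DegOK k L) {x : ℝ} (h0 : 0 < x) (h1 : x < 1) :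
    |evalL L x| ≤ normL L * (81 * ((2 * (k + 1)).factorial : ℝ) ^ 2) := by
  induction L with
  | nil => simp [evalL, normL]
  | cons t L ih =>
    have h2 : DegOK k L := fun t' ht' => h t' (List.mem_cons_of_mem _ ht')
    have h3 := ih h2
    have h4 := h t List.mem_cons_self
    have e1 : evalL (t :: L) x = t.1 * Mon t.2.1 t.2.2.1 t.2.2.2 x + evalL L x := by
      simp [evalL]
    have e2 : normL (t :: L) = |t.1| + normL L := by
      simp [normL]
    rw [e1, e2]
    have h5 : |Mon t.2.1 t.2.2.1 t.2.2.2 x| ≤ 81 * ((2 * (k + 1)).factorial : ℝ) ^ 2 := by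
      refine (Mon_bound _ _ _ h0 h1).trans ?_
      have h6 : t.2.1.factorial ≤ (2 * (k + 1)).factorial := Nat.factorial_le (by omega)
      have h7 : t.2.2.1.factorial ≤ (2 * (k + 1)).factorial := Nat.factorial_le (by omega)
      have h6' : (t.2.1.factorial : ℝ) ≤ (2 * (k + 1)).factorial := by exact_mod_cast h6
      have h7' : (t.2.2.1.factorial : ℝ) ≤ (2 * (k + 1)).factorial := by exact_mod_cast h7
      rw [pow_two]
      apply mul_le_mul_of_nonneg_left _ (by norm_num)
      exact mul_le_mul h6' h7' (Nat.cast_nonneg _) (Nat.cast_nonneg _)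
    calc |t.1 * Mon t.2.1 t.2.2.1 t.2.2.2 x + evalL L x|
        ≤ |t.1 * Mon t.2.1 t.2.2.1 t.2.2.2 x| + |evalL L x| := abs_add_le _ _
      _ = |t.1| * |Mon t.2.1 t.2.2.1 t.2.2.2 x| + |evalL L x| := by rw [abs_mul]
      _ ≤ |t.1| * (81 * ((2 * (k + 1)).factorial : ℝ) ^ 2) + normL L * (81 * ((2 * (k + 1)).factorial : ℝ) ^ 2) :=
          add_le_add (mul_le_mul_of_nonneg_left h5 (abs_nonneg _)) h3
      _ = (|t.1| + normL L) * (81 * ((2 * (k + 1)).factorial : ℝ) ^ 2) := by ring

/-- the list of terms of the `(k+1)`-st derivative -/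
noncomputable def Lk : ℕ → List Tm
  | 0 => [(1, 2, 0, 0), (1, 0, 2, 0)]
  | k + 1 => dL (Lk k)

theorem Lk_deg (k : ℕ) : DegOK k (Lk k) := by
  induction k with
  | zero =>
    intro t ht
    simp only [Lk, List.mem_cons, List.not_mem_nil, or_false] at ht
    rcases ht with rfl | rfl <;> simp
  | succ k ih => exact DegOK_dL ih

/-- the coefficient norm bound -/
def Cb : ℕ → ℕ
  | 0 => 1
  | k + 1 => (6 * k + 2) * Cb k

theorem Lk_norm (k : ℕ) : normL (Lk k) ≤ Cb (k + 1) := by
  induction k with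
  | zero =>
    simp only [Lk, normL, Cb, List.map_cons, List.map_nil, List.sum_cons, List.sum_nil]
    norm_num
  | succ k ih =>
    have h := normL_dL (Lk_deg k)
    have e : (Cb (k + 2) : ℝ) = (6 * (k : ℝ) + 8) * Cb (k + 1) := by
      rw [Cb]; push_cast; ring
    rw [e]
    refine h.trans ?_
    exact mul_le_mul_of_nonneg_left ih (by positivity)

theorem iteratedDeriv_sst_eq (k : ℕ) {x : ℝ} (h0 : 0 < x) (h1 : x < 1) :
    iteratedDeriv (k + 1) sst x = evalL (Lk k) x := by
  induction k generalizing x with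
  | zero =>
    rw [iteratedDeriv_one, (sst_hasDerivAt h0 h1).deriv]
    simp only [Lk, evalL, Mon, List.map_cons, List.map_nil, List.sum_cons, List.sum_nil]
    ring
  | succ k ih =>
    rw [iteratedDeriv_succ]
    have hev : iteratedDeriv (k + 1) sst =ᶠ[nhds x] evalL (Lk k) := by
      filter_upwards [Ioo_mem_nhds h0 h1] with y hy
      exact ih hy.1 hy.2
    rw [hev.deriv_eq, (evalL_hasDerivAt (Lk k) h0 h1).deriv]
    rfl

/-- the global bound for the derivatives of the smooth step. -/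
def sstBound (k : ℕ) : ℕ := Cb k * (81 * ((2 * k).factorial) ^ 2)

theorem Cb_pos (k : ℕ) : 0 < Cb k := by
  induction k with
  | zero => simp [Cb]
  | succ k ih => simp only [Cb]; positivity

theorem Cb_mono : Monotone Cb := by
  apply monotone_nat_of_le_succ
  intro k
  simp only [Cb]
  have := Cb_pos k
  nlinarith

theorem sstBound_mono : Monotone sstBound := by
  intro a b hab
  unfold sstBound
  apply Nat.mul_le_mul (Cb_mono hab)
  apply Nat.mul_le_mul le_rfl
  exact Nat.pow_le_pow_left (Nat.factorial_le (by omega)) 2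

theorem computable_factorial : Computable Nat.factorial := by
  have h : Primrec₂ (fun (_ : ℕ) (y : ℕ × ℕ) => (y.1 + 1) * y.2) :=
    Primrec.nat_mul.comp (Primrec.succ.comp (Primrec.fst.comp Primrec.snd)) (Primrec.snd.comp Primrec.snd)
  have := Primrec.nat_rec (f := fun _ : ℕ => 1) (Primrec.const 1) h
  have h2 : Primrec (fun k : ℕ => Nat.rec (motive := fun _ => ℕ) 1
      (fun y IH => (y + 1) * IH) k) := by
    have := Primrec.nat_rec' (f := fun k : ℕ => k) (g := fun _ => 1)
      (h := fun (_ : ℕ) (y : ℕ × ℕ) => (y.1 + 1) * y.2) Primrec.id (Primrec.const 1) h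
    exact this
  refine h2.to_comp.of_eq ?_
  intro k
  induction k with
  | zero => rfl
  | succ k ih =>
    simp only [Nat.factorial]
    rw [← ih]

theorem computable_Cb : Computable Cb := by
  have h : Primrec₂ (fun (_ : ℕ) (y : ℕ × ℕ) => (6 * y.1 + 2) * y.2) :=
    Primrec.nat_mul.comp
      (Primrec.nat_add.comp (Primrec.nat_mul.comp (Primrec.const 6) (Primrec.fst.comp Primrec.snd))
        (Primrec.const 2)) (Primrec.snd.comp Primrec.snd)
  have h2 : Primrec (fun k : ℕ => Nat.rec (motive := fun _ => ℕ) 1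
      (fun y IH => (6 * y + 2) * IH) k) := by
    have := Primrec.nat_rec' (f := fun k : ℕ => k) (g := fun _ => 1)
      (h := fun (_ : ℕ) (y : ℕ × ℕ) => (6 * y.1 + 2) * y.2) Primrec.id (Primrec.const 1) h
    exact this
  refine h2.to_comp.of_eq ?_
  intro k
  induction k with
  | zero => rfl
  | succ k ih =>
    simp only [Cb]
    rw [← ih]

theorem computable_sstBound : Computable sstBound := by
  have h1 : Computable (fun k : ℕ => (2 * k).factorial) :=
    computable_factorial.comp (Primrec.nat_double.to_comp)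
  have h2 : Computable (fun k : ℕ => (2 * k).factorial ^ 2) :=
    (Primrec.nat_mul.to_comp.comp h1 h1).of_eq fun k => by simp [pow_two]
  unfold sstBound
  refine Primrec.nat_mul.to_comp.comp computable_Cb ?_
  exact Primrec.nat_mul.to_comp.comp (Computable.const 81) h2

/-- off `{0, 1}` the higher derivatives of the step vanish or are given by the formula -/
theorem iteratedDeriv_sst_bound (k : ℕ) (x : ℝ) :
    |iteratedDeriv k sst x| ≤ sstBound k := by
  cases k with
  | zero =>
    rw [iteratedDeriv_zero, abs_of_nonneg (sst_nonneg x)]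
    refine (sst_le_one x).trans ?_
    have : 1 ≤ sstBound 0 := by simp [sstBound, Cb]
    exact_mod_cast this
  | succ k =>
    have hcont : Continuous (iteratedDeriv (k + 1) sst) :=
      (sst_contDiff (n := ((k + 1 : ℕ) : ℕ∞))).continuous_iteratedDeriv _ (by simp)
    have hclosed : IsClosed {y : ℝ | |iteratedDeriv (k + 1) sst y| ≤ sstBound (k + 1)} :=
      isClosed_le hcont.abs continuous_const
    have hdense : Dense ({0, 1}ᶜ : Set ℝ) :=
      (Set.Countable.dense_compl ℝ (Set.toFinite _).countable)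
    have hsub : ({0, 1}ᶜ : Set ℝ) ⊆ {y : ℝ | |iteratedDeriv (k + 1) sst y| ≤ sstBound (k + 1)} := by
      intro y hy
      simp only [Set.mem_compl_iff, Set.mem_insert_iff, Set.mem_singleton_iff, not_or] at hy
      simp only [Set.mem_setOf_eq]
      have hB0 : (0 : ℝ) ≤ sstBound (k + 1) := Nat.cast_nonneg _
      rcases lt_or_gt_of_ne hy.1 with h | h
      · -- y < 0
        have hev : sst =ᶠ[nhds y] fun _ => (0 : ℝ) := by
          filter_upwards [Iio_mem_nhds h] with z hz
          exact sst_of_nonpos (le_of_lt hz)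
        have := hev.iteratedDeriv_eq (k + 1)
        rw [this]
        simp only [iteratedDeriv_const, Nat.add_eq_zero_iff, one_ne_zero, and_false, if_false, abs_zero]
        simpa using hB0
      · rcases lt_or_gt_of_ne hy.2 with h' | h'
        · -- 0 < y < 1
          rw [iteratedDeriv_sst_eq k h h']
          refine (evalL_bound (Lk_deg k) h h').trans ?_
          unfold sstBound
          push_cast
          apply mul_le_mul_of_nonneg_right (Lk_norm k) (by positivity)
        · -- 1 < y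
          have hev : sst =ᶠ[nhds y] fun _ => (1 : ℝ) := by
            filter_upwards [Ioi_mem_nhds h'] with z hz
            exact sst_of_one_le (le_of_lt hz)
          have := hev.iteratedDeriv_eq (k + 1)
          rw [this]
          simp only [iteratedDeriv_const, Nat.add_eq_zero_iff, one_ne_zero, and_false, if_false, abs_zero]
          simpa using hB0
    exact hclosed.closure_subset_iff.2 hsub (hdense x)

end Crest.Agent.Lib.BF
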