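import Mathlib
import Crest.Agent.Lib.BF.SmoothStep

/-!
The class of univariate effective functions: smooth, computable values at rationals, and
computable bounds for all derivatives. All derivatives at rational points are then
computable by finite differences.
-/

namespace Crest.Agent.Lib.BF

open Computable Finset
open scoped ContDiff fwdDiff

/-- univariate effective functions -/
structure G1 (g : ℝ → ℝ) : Prop where
  smooth : ContDiff ℝ ∞ g
  val : CompReal (fun q : ℚ => g q)
  bd : ∃ B : ℕ → ℕ, Computable B ∧ Monotone B ∧ ∀ k y, |iteratedDeriv k g y| ≤ B k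

theorem contDiff_nat_of_infty {g : ℝ → ℝ} (h : ContDiff ℝ ∞ g) (k : ℕ) : ContDiff ℝ k g :=
  h.of_le (by exact_mod_cast le_top)

theorem computable_nat_pow : Computable₂ (fun a b : ℕ => a ^ b) :=
  (Primrec₂.unpaired'.1 Nat.Primrec.pow).to_comp

theorem computable_nat_mul : Computable₂ (fun a b : ℕ => a * b) := Primrec.nat_mul.to_comp
theorem computable_nat_add : Computable₂ (fun a b : ℕ => a + b) := Primrec.nat_add.to_comp

theorem G1_sst : G1 sst where
  smooth := sst_contDiff (n := ⊤)
  val := sst_compReal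
  bd := ⟨sstBound, computable_sstBound, sstBound_mono, iteratedDeriv_sst_bound⟩

theorem iteratedDeriv_smooth_differentiable {g : ℝ → ℝ} (h : ContDiff ℝ ∞ g) (k : ℕ) :
    Differentiable ℝ (iteratedDeriv k g) :=
  (contDiff_nat_of_infty h (k + 1)).differentiable_iteratedDeriv k (by exact_mod_cast Nat.lt_succ_self k)

theorem iteratedDeriv_hasDerivAt {g : ℝ → ℝ} (h : ContDiff ℝ ∞ g) (k : ℕ) (y : ℝ) :
    HasDerivAt (iteratedDeriv k g) (iteratedDeriv (k + 1) g y) y := by
  rw [iteratedDeriv_succ]
  exact (iteratedDeriv_smooth_differentiable h k y).hasDerivAt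

theorem iteratedDeriv_contDiff {g : ℝ → ℝ} (h : ContDiff ℝ ∞ g) (k : ℕ) :
    ContDiff ℝ ∞ (iteratedDeriv k g) := by
  induction k with
  | zero => simpa using h
  | succ k ih =>
    have : iteratedDeriv (k + 1) g = deriv (iteratedDeriv k g) := iteratedDeriv_succ
    rw [this]
    exact (contDiff_infty_iff_deriv.1 ih).2

/-- Leibniz bound -/
theorem abs_iteratedDeriv_mul_le {f g : ℝ → ℝ} (hf : ContDiff ℝ ∞ f) (hg : ContDiff ℝ ∞ g)
    (k : ℕ) (y F G : ℝ) (hF : ∀ i ≤ k, |iteratedDeriv i f y| ≤ F)
    (hG : ∀ i ≤ k, |iteratedDeriv i g y| ≤ G) :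
    |iteratedDeriv k (fun x => f x * g x) y| ≤ 2 ^ k * (F * G) := by
  have hf' : ContDiffAt ℝ k f y := (contDiff_nat_of_infty hf k).contDiffAt
  have hg' : ContDiffAt ℝ k g y := (contDiff_nat_of_infty hg k).contDiffAt
  rw [iteratedDeriv_fun_mul hf' hg']
  have hF0 : 0 ≤ F := (abs_nonneg _).trans (hF 0 (Nat.zero_le _))
  have hG0 : 0 ≤ G := (abs_nonneg _).trans (hG 0 (Nat.zero_le _))
  calc |∑ i ∈ range (k + 1), (k.choose i : ℝ) * iteratedDeriv i f y * iteratedDeriv (k - i) g y|
      ≤ ∑ i ∈ range (k + 1), |(k.choose i : ℝ) * iteratedDeriv i f y * iteratedDeriv (k - i) g y| :=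
        Finset.abs_sum_le_sum_abs _ _
    _ ≤ ∑ i ∈ range (k + 1), (k.choose i : ℝ) * (F * G) := by
        refine Finset.sum_le_sum fun i hi => ?_
        have hi' : i ≤ k := Nat.lt_succ_iff.1 (Finset.mem_range.1 hi)
        rw [abs_mul, abs_mul, Nat.abs_cast, mul_assoc]
        refine mul_le_mul_of_nonneg_left ?_ (Nat.cast_nonneg _)
        exact mul_le_mul (hF i hi') (hG _ (Nat.sub_le _ _)) (abs_nonneg _) hF0
    _ = 2 ^ k * (F * G) := by
        rw [← Finset.sum_mul]
        congr 1
        have := Nat.sum_range_choose k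
        exact_mod_cast this

theorem G1.mul {f g : ℝ → ℝ} (hf : G1 f) (hg : G1 g) : G1 (fun y => f y * g y) := by
  obtain ⟨Bf, hBf, mBf, bBf⟩ := hf.bd
  obtain ⟨Bg, hBg, mBg, bBg⟩ := hg.bd
  refine ⟨hf.smooth.mul hg.smooth, hf.val.mul hg.val, fun k => 2 ^ k * (Bf k * Bg k), ?_, ?_, ?_⟩
  · exact computable_nat_mul.comp (computable_nat_pow.comp (Computable.const 2) Computable.id)
      (computable_nat_mul.comp hBf hBg)
  · intro a b hab
    exact Nat.mul_le_mul (Nat.pow_le_pow_right (by norm_num) hab) (Nat.mul_le_mul (mBf hab) (mBg hab))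
  · intro k y
    push_cast
    refine abs_iteratedDeriv_mul_le hf.smooth hg.smooth k y _ _ ?_ ?_
    · intro i hi
      refine (bBf i y).trans ?_
      exact_mod_cast mBf hi
    · intro i hi
      refine (bBg i y).trans ?_
      exact_mod_cast mBg hi

theorem G1.comp_affine {g : ℝ → ℝ} (hg : G1 g) (a b : ℚ) :
    G1 (fun y => g ((a : ℝ) * y + (b : ℝ))) := by
  obtain ⟨B, hB, mB, bB⟩ := hg.bd
  have hsm : ContDiff ℝ ∞ (fun y : ℝ => (a : ℝ) * y + (b : ℝ)) :=
    (contDiff_const.mul contDiff_id).add contDiff_const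
  refine ⟨hg.smooth.comp hsm, ?_, fun k => (ratCeil a) ^ k * B k, ?_, ?_, ?_⟩
  · have hc : Computable (fun q : ℚ => a * q + b) :=
      computable_rat_add.comp (computable_rat_mul.comp (Computable.const a) Computable.id)
        (Computable.const b)
    refine (hg.val.comp hc).of_eq ?_
    intro q
    push_cast
    rfl
  · exact computable_nat_mul.comp (computable_nat_pow.comp (Computable.const _) Computable.id) hB
  · intro i j hij
    have h1 : 1 ≤ ratCeil a := by unfold ratCeil; omega
    exact Nat.mul_le_mul (Nat.pow_le_pow_right h1 hij) (mB hij)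
  · intro k y
    have hsm2 : ContDiff ℝ k (fun w : ℝ => g (w + (b : ℝ))) :=
      (contDiff_nat_of_infty hg.smooth k).comp (contDiff_id.add contDiff_const)
    have e1 := iteratedDeriv_comp_const_mul hsm2 (a : ℝ)
    have e2 := iteratedDeriv_comp_add_const k g (b : ℝ)
    have e3 : iteratedDeriv k (fun y : ℝ => g ((a : ℝ) * y + (b : ℝ))) y =
        (a : ℝ) ^ k * iteratedDeriv k g ((a : ℝ) * y + (b : ℝ)) := by
      have h5 := congrFun e1 y
      have h6 := congrFun e2 ((a : ℝ) * y)
      exact h5.trans (congrArg (fun t => (a : ℝ) ^ k * t) h6)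
    rw [e3, abs_mul, abs_pow]
    push_cast
    have h4 : |(a : ℝ)| ≤ ratCeil a := by
      have := abs_le_ratCeil a
      exact_mod_cast this
    exact mul_le_mul (pow_le_pow_left₀ (abs_nonneg _) h4 k) (bB k _) (abs_nonneg _) (by positivity)

theorem G1.const (c : ℚ) : G1 (fun _ => (c : ℝ)) := by
  refine ⟨contDiff_const, CompReal.const c, fun _ => ratCeil c, Computable.const _,
    fun _ _ _ => le_rfl, ?_⟩
  intro k y
  rw [iteratedDeriv_const]
  have h4 : |(c : ℝ)| ≤ ratCeil c := by
    have := abs_le_ratCeil c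
    exact_mod_cast this
  split_ifs
  · exact h4
  · simp

theorem G1.add {f g : ℝ → ℝ} (hf : G1 f) (hg : G1 g) : G1 (fun y => f y + g y) := by
  obtain ⟨Bf, hBf, mBf, bBf⟩ := hf.bd
  obtain ⟨Bg, hBg, mBg, bBg⟩ := hg.bd
  refine ⟨hf.smooth.add hg.smooth, hf.val.add hg.val, fun k => Bf k + Bg k, ?_, ?_, ?_⟩
  · exact computable_nat_add.comp hBf hBg
  · intro a b hab
    exact Nat.add_le_add (mBf hab) (mBg hab)
  · intro k y
    have e : iteratedDeriv k (fun y => f y + g y) y = iteratedDeriv k f y + iteratedDeriv k g y :=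
      iteratedDeriv_fun_add (contDiff_nat_of_infty hf.smooth k).contDiffAt
        (contDiff_nat_of_infty hg.smooth k).contDiffAt
    rw [e]
    push_cast
    exact (abs_add_le _ _).trans (add_le_add (bBf k y) (bBg k y))

/-- vanishing outside a compact interval -/
def Vanish (R : ℝ) (f : ℝ → ℝ) : Prop := ∀ y, R < |y| → f y = 0

theorem Vanish.iteratedDeriv_eq_zero {R : ℝ} {f : ℝ → ℝ} (h : Vanish R f) (k : ℕ) {y : ℝ}
    (hy : R < |y|) : iteratedDeriv k f y = 0 := by
  have hev : f =ᶠ[nhds y] fun _ => (0 : ℝ) := by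
    have hopen : IsOpen {z : ℝ | R < |z|} := isOpen_lt continuous_const continuous_abs
    filter_upwards [hopen.mem_nhds hy] with z hz
    exact h z hz
  rw [hev.iteratedDeriv_eq k]
  simp

theorem G1.mul_id {f : ℝ → ℝ} {R : ℝ} (hf : G1 f) (hv : Vanish R f) :
    G1 (fun y => y * f y) := by
  obtain ⟨B, hB, mB, bB⟩ := hf.bd
  -- a natural number bound for `R`
  obtain ⟨r, hr⟩ := exists_nat_ge R
  have hid : ContDiff ℝ ∞ (fun y : ℝ => y) := contDiff_id
  refine ⟨hid.mul hf.smooth, ?_, fun k => 2 ^ k * ((r + 1) * B k), ?_, ?_, ?_⟩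
  · exact (CompReal.ofRat Computable.id).mul hf.val
  · exact computable_nat_mul.comp (computable_nat_pow.comp (Computable.const 2) Computable.id)
      (computable_nat_mul.comp (Computable.const _) hB)
  · intro a b hab
    exact Nat.mul_le_mul (Nat.pow_le_pow_right (by norm_num) hab) (Nat.mul_le_mul le_rfl (mB hab))
  · intro k y
    have hR0 : (0 : ℝ) ≤ r := Nat.cast_nonneg r
    by_cases hy : R < |y|
    · -- the product vanishes near y
      have hev : (fun x => x * f x) =ᶠ[nhds y] fun _ => (0 : ℝ) := by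
        have hopen : IsOpen {z : ℝ | R < |z|} := isOpen_lt continuous_const continuous_abs
        filter_upwards [hopen.mem_nhds hy] with z hz
        rw [hv z hz, mul_zero]
      rw [hev.iteratedDeriv_eq k]
      simp only [iteratedDeriv_const]
      split_ifs <;> simp <;> positivity
    · have hy' : |y| ≤ r := (not_lt.1 hy).trans hr
      push_cast
      refine abs_iteratedDeriv_mul_le hid hf.smooth k y ((r : ℝ) + 1) (B k) ?_ ?_
      · intro i _
        rw [iteratedDeriv_fun_id]
        split_ifs
        · linarith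
        · simp only [abs_one]; linarith
        · simp only [abs_zero]; linarith
      · intro i hi
        refine (bB i y).trans ?_
        exact_mod_cast mB hi

/-! ### finite differences -/

/-- difference quotient -/
noncomputable def fdq (h : ℝ) (g : ℝ → ℝ) : ℝ → ℝ := fun y => (g (y + h) - g y) / h

theorem fdq_smooth {g : ℝ → ℝ} (hg : ContDiff ℝ ∞ g) (h : ℝ) : ContDiff ℝ ∞ (fdq h g) := by
  unfold fdq
  exact ((hg.comp (contDiff_id.add contDiff_const)).sub hg).div_const h

theorem iteratedDeriv_fdq {g : ℝ → ℝ} (hg : ContDiff ℝ ∞ g) (h : ℝ) (j : ℕ) (y : ℝ) :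
    iteratedDeriv j (fdq h g) y = (iteratedDeriv j g (y + h) - iteratedDeriv j g y) / h := by
  unfold fdq
  rw [iteratedDeriv_div_const]
  congr 1
  have h1 : ContDiffAt ℝ j (fun y => g (y + h)) y :=
    ((contDiff_nat_of_infty hg j).comp (contDiff_id.add contDiff_const)).contDiffAt
  have h2 : ContDiffAt ℝ j g y := (contDiff_nat_of_infty hg j).contDiffAt
  rw [iteratedDeriv_fun_sub h1 h2]
  congr 1
  exact congrFun (iteratedDeriv_comp_add_const j g h) y

/-- the mean value bound -/
theorem abs_sub_le_of_deriv_bound {f f' : ℝ → ℝ} (hf : ∀ y, HasDerivAt f (f' y) y) {C : ℝ}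
    (hC : ∀ y, |f' y| ≤ C) (a b : ℝ) : |f b - f a| ≤ C * |b - a| := by
  have := Convex.norm_image_sub_le_of_norm_hasDerivWithin_le (f := f) (f' := f') (C := C)
    (s := Set.univ) (x := a) (y := b)
    (fun x _ => (hf x).hasDerivWithinAt) (fun x _ => by simpa using hC x) convex_univ
    (Set.mem_univ _) (Set.mem_univ _)
  simpa using this

theorem fd_error {h : ℝ} (hh : 0 < h) (k : ℕ) :
    ∀ (g : ℝ → ℝ) (b : ℕ → ℝ), ContDiff ℝ ∞ g → (∀ j y, |iteratedDeriv j g y| ≤ b j) → ∀ q : ℝ,
      |((fwdDiff h)^[k] g) q / h ^ k - iteratedDeriv k g q| ≤ k * h * b (k + 1) := by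
  induction k with
  | zero =>
    intro g b _ _ q
    simp
  | succ k ih =>
    intro g b hg hb q
    set G := fdq h g with hG
    have hGs : ContDiff ℝ ∞ G := fdq_smooth hg h
    have hdiff : ∀ j y, |iteratedDeriv j G y| ≤ b (j + 1) := by
      intro j y
      rw [hG, iteratedDeriv_fdq hg, abs_div, abs_of_pos hh, div_le_iff₀ hh]
      have := abs_sub_le_of_deriv_bound (f := iteratedDeriv j g) (f' := iteratedDeriv (j + 1) g)
        (iteratedDeriv_hasDerivAt hg j) (hb (j + 1)) y (y + h)
      simpa [abs_of_pos hh] using this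
    have h1 := ih G (fun j => b (j + 1)) hGs hdiff q
    -- the two forms of the difference
    have e1 : fwdDiff h g = h • G := by
      funext y
      simp only [fwdDiff, hG, fdq, Pi.smul_apply, smul_eq_mul]
      field_simp
    have e2 : ((fwdDiff h)^[k + 1] g) q / h ^ (k + 1) = ((fwdDiff h)^[k] G) q / h ^ k := by
      rw [Function.iterate_succ_apply, e1, fwdDiff_iter_const_smul]
      simp only [Pi.smul_apply, smul_eq_mul]
      rw [pow_succ]
      field_simp
    rw [e2]
    -- second estimate
    have h2 : |iteratedDeriv k G q - iteratedDeriv (k + 1) g q| ≤ h * b (k + 2) := by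
      rw [hG, iteratedDeriv_fdq hg]
      have hφ : ∀ y, HasDerivAt (fun y => iteratedDeriv k g y - iteratedDeriv (k + 1) g q * y)
          (iteratedDeriv (k + 1) g y - iteratedDeriv (k + 1) g q) y := by
        intro y
        have := (iteratedDeriv_hasDerivAt hg k y).fun_sub
          ((hasDerivAt_id' y).const_mul (iteratedDeriv (k + 1) g q))
        exact this.congr_deriv (by simp)
      -- restrict to the segment
      have h3 := Convex.norm_image_sub_le_of_norm_hasDerivWithin_le
        (f := fun y => iteratedDeriv k g y - iteratedDeriv (k + 1) g q * y)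
        (f' := fun y => iteratedDeriv (k + 1) g y - iteratedDeriv (k + 1) g q)
        (C := h * b (k + 2)) (s := Set.Icc q (q + h)) (x := q) (y := q + h)
        (fun y _ => (hφ y).hasDerivWithinAt)
        (fun y hy => by
          have h4 := abs_sub_le_of_deriv_bound (f := iteratedDeriv (k + 1) g)
            (f' := iteratedDeriv (k + 2) g) (iteratedDeriv_hasDerivAt hg (k + 1)) (hb (k + 2)) q y
          have hb0 : 0 ≤ b (k + 2) := (abs_nonneg _).trans (hb (k + 2) 0)
          have hyq : |y - q| ≤ h := by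
            rw [abs_of_nonneg (by linarith [hy.1])]
            linarith [hy.2]
          rw [Real.norm_eq_abs]
          calc |iteratedDeriv (k + 1) g y - iteratedDeriv (k + 1) g q|
              ≤ b (k + 2) * |y - q| := h4
            _ ≤ b (k + 2) * h := mul_le_mul_of_nonneg_left hyq hb0
            _ = h * b (k + 2) := by ring)
        (convex_Icc _ _) (Set.left_mem_Icc.2 (by linarith)) (Set.right_mem_Icc.2 (by linarith))
      simp only [Real.norm_eq_abs, add_sub_cancel_left, abs_of_pos hh] at h3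
      have e3 : (iteratedDeriv k g (q + h) - iteratedDeriv k g q) / h - iteratedDeriv (k + 1) g q
          = ((iteratedDeriv k g (q + h) - iteratedDeriv (k + 1) g q * (q + h))
            - (iteratedDeriv k g q - iteratedDeriv (k + 1) g q * q)) / h := by
        field_simp
        ring
      rw [e3, abs_div, abs_of_pos hh, div_le_iff₀ hh]
      exact h3
    have hb1 : (k : ℝ) * h * b (k + 1 + 1) + h * b (k + 2) = ((k + 1 : ℕ) : ℝ) * h * b (k + 1 + 1) := by
      push_cast
      ring
    calc |((fwdDiff h)^[k] G) q / h ^ k - iteratedDeriv (k + 1) g q|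
        = |(((fwdDiff h)^[k] G) q / h ^ k - iteratedDeriv k G q) + (iteratedDeriv k G q - iteratedDeriv (k + 1) g q)| := by
          ring_nf
      _ ≤ |((fwdDiff h)^[k] G) q / h ^ k - iteratedDeriv k G q| + |iteratedDeriv k G q - iteratedDeriv (k + 1) g q| :=
          abs_add_le _ _
      _ ≤ (k : ℝ) * h * b (k + 1 + 1) + h * b (k + 2) := add_le_add h1 h2
      _ = ((k + 1 : ℕ) : ℝ) * h * b (k + 1 + 1) := hb1

/-- computable binomial coefficients -/
def chooseF (k i : ℕ) : ℕ := k.factorial / (i.factorial * (k - i).factorial)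

theorem chooseF_eq {k i : ℕ} (h : i ≤ k) : chooseF k i = k.choose i :=
  (Nat.choose_eq_factorial_div_factorial h).symm

theorem computable_chooseF : Computable₂ chooseF := by
  have hd : Computable₂ (fun a b : ℕ => a / b) := Primrec.nat_div.to_comp
  have hs : Computable₂ (fun a b : ℕ => a - b) := Primrec.nat_sub.to_comp
  have h1 : Computable (fun p : ℕ × ℕ => p.1.factorial) := computable_factorial.comp Computable.fst
  have h2 : Computable (fun p : ℕ × ℕ => p.2.factorial) := computable_factorial.comp Computable.snd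
  have h3 : Computable (fun p : ℕ × ℕ => (p.1 - p.2).factorial) :=
    computable_factorial.comp (hs.comp Computable.fst Computable.snd)
  exact hd.comp h1 (computable_nat_mul.comp h2 h3)

/-- the coefficient in the finite difference formula -/
def fdCoef (k i : ℕ) : ℚ := (-1 : ℚ) ^ (k - i) * (chooseF k i : ℚ)

theorem computable_fdCoef : Computable₂ fdCoef := by
  have hs : Computable₂ (fun a b : ℕ => a - b) := Primrec.nat_sub.to_comp
  refine computable_rat_mul.comp ?_ ?_
  · exact computable_rat_pow (Computable.const (-1 : ℚ)) (hs.comp Computable.fst Computable.snd)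
  · exact computable_nat_cast.comp (computable_chooseF.comp Computable.fst Computable.snd)

/-- the finite difference approximation of the `k`-th derivative at `q`, mesh `1/N`. -/
noncomputable def fdApprox (g : ℝ → ℝ) (x : ℕ × ℚ × ℕ) : ℝ :=
  (x.2.2 : ℝ) ^ x.1 * ∑ i ∈ range (x.1 + 1), (fdCoef x.1 i : ℝ) * g ((x.2.1 + i / x.2.2 : ℚ) : ℝ)

theorem fdApprox_compReal {g : ℝ → ℝ} (hg : CompReal (fun q : ℚ => g q)) :
    CompReal (fdApprox g) := by
  unfold fdApprox
  refine CompReal.mul ?_ ?_
  · have : Computable (fun x : ℕ × ℚ × ℕ => ((x.2.2 : ℚ)) ^ x.1) :=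
      computable_rat_pow (computable_nat_cast.comp (Computable.snd.comp Computable.snd)) Computable.fst
    refine (CompReal.ofRat this).of_eq ?_
    intro p
    push_cast
    rfl
  · have hf : CompReal (fun y : (ℕ × ℚ × ℕ) × ℕ =>
        (fdCoef y.1.1 y.2 : ℝ) * g ((y.1.2.1 + y.2 / y.1.2.2 : ℚ) : ℝ)) := by
      refine CompReal.mul ?_ ?_
      · exact CompReal.ofRat (computable_fdCoef.comp (Computable.fst.comp Computable.fst) Computable.snd)
      · have hc : Computable (fun y : (ℕ × ℚ × ℕ) × ℕ => (y.1.2.1 + y.2 / y.1.2.2 : ℚ)) := by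
          refine computable_rat_add.comp ?_ ?_
          · exact Computable.fst.comp (Computable.snd.comp Computable.fst)
          · exact computable_rat_div (computable_nat_cast.comp Computable.snd)
              (computable_nat_cast.comp (Computable.snd.comp (Computable.snd.comp Computable.fst)))
        exact hg.comp hc
    exact CompReal.sum_range (m := fun x : ℕ × ℚ × ℕ => x.1 + 1) hf
      (Computable.succ.comp Computable.fst)

theorem fdApprox_eq (g : ℝ → ℝ) (k : ℕ) (q : ℚ) {N : ℕ} (hN : 0 < N) :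
    fdApprox g (k, q, N) = ((fwdDiff (1 / (N : ℝ)))^[k] g) (q : ℝ) / (1 / (N : ℝ)) ^ k := by
  unfold fdApprox
  simp only
  rw [fwdDiff_iter_eq_sum_shift]
  have hNR : (N : ℝ) ≠ 0 := by exact_mod_cast hN.ne'
  rw [one_div, inv_pow, div_inv_eq_mul, mul_comm]
  congr 1
  refine Finset.sum_congr rfl fun i hi => ?_
  have hi' : i ≤ k := Nat.lt_succ_iff.1 (Finset.mem_range.1 hi)
  unfold fdCoef
  rw [chooseF_eq hi']
  simp only [zsmul_eq_mul, nsmul_eq_mul]
  push_cast
  congr 2

theorem G1.deriv_compReal {g : ℝ → ℝ} (hg : G1 g) :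
    CompReal (fun p : ℕ × ℚ => iteratedDeriv p.1 g (p.2 : ℝ)) := by
  obtain ⟨B, hB, mB, bB⟩ := hg.bd
  -- the mesh
  let M : (ℕ × ℚ) × ℕ → ℕ := fun y => (y.2 + 1) * (y.1.1 * B (y.1.1 + 1) + 1)
  have hM : Computable M := by
    refine computable_nat_mul.comp (Computable.succ.comp Computable.snd) (Computable.succ.comp ?_)
    refine computable_nat_mul.comp (Computable.fst.comp Computable.fst) ?_
    exact hB.comp (Computable.succ.comp (Computable.fst.comp Computable.fst))
  have hmap : Computable (fun y : (ℕ × ℚ) × ℕ => (y.1.1, y.1.2, M y)) :=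
    Computable.pair (Computable.fst.comp Computable.fst)
      (Computable.pair (Computable.snd.comp Computable.fst) hM)
  have hc := (fdApprox_compReal hg.val).comp hmap
  refine CompReal.of_approx hc ?_
  rintro ⟨k, q⟩ n
  have hMpos : 0 < M ((k, q), n) := by
    simp only [M]
    positivity
  rw [fdApprox_eq g k q hMpos]
  have hMR : (M ((k, q), n) : ℝ) = ((n : ℝ) + 1) * ((k : ℝ) * (B (k + 1) : ℝ) + 1) := by
    simp only [M]
    push_cast
    ring
  have hh : (0 : ℝ) < 1 / (M ((k, q), n) : ℝ) := by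
    have : (0 : ℝ) < M ((k, q), n) := by exact_mod_cast hMpos
    positivity
  have h1 := fd_error hh k g (fun j => (B j : ℝ)) hg.smooth bB (q : ℝ)
  simp only
  rw [abs_sub_comm]
  refine h1.trans ?_
  rw [hMR]
  have hn : (0 : ℝ) ≤ n := Nat.cast_nonneg n
  have hk : (0 : ℝ) ≤ (k : ℝ) * (B (k + 1) : ℝ) := by positivity
  rw [show (k : ℝ) * (1 / (((n : ℝ) + 1) * ((k : ℝ) * (B (k + 1) : ℝ) + 1))) * (B (k + 1) : ℝ)
      = ((k : ℝ) * (B (k + 1) : ℝ)) / (((n : ℝ) + 1) * ((k : ℝ) * (B (k + 1) : ℝ) + 1)) by ring]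
  rw [div_le_div_iff₀ (by positivity) (by positivity)]
  nlinarith

end Crest.Agent.Lib.BF
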