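import Mathlib
import Crest.Prelude.Def_BoxFlow
import Crest.Agent.Lib.BF.Univariate

/-!
Tensor-product fields on space-time: derivatives, effectiveness, closure under sums.
-/

namespace Crest.Agent.Lib.BF

open Computable Finset Crest.AnalysisR.BoxFlow
open scoped ContDiff

/-- space-time -/
abbrev Pt := ℝ × (Fin 3 → ℝ)

/-- coordinates on space-time as continuous linear functionals -/
noncomputable def coL (a : Fin 4) : Pt →L[ℝ] ℝ :=
  Fin.cases (ContinuousLinearMap.fst ℝ ℝ (Fin 3 → ℝ))
    (fun i => (ContinuousLinearMap.proj i).comp (ContinuousLinearMap.snd ℝ ℝ (Fin 3 → ℝ))) a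

@[simp] theorem coL_zero (p : Pt) : coL 0 p = p.1 := rfl
@[simp] theorem coL_succ (i : Fin 3) (p : Pt) : coL i.succ p = p.2 i := rfl

theorem direction_zero : direction 0 = (1, 0) := by
  simp [direction]

theorem direction_succ (i : Fin 3) : direction i.succ = (0, Pi.single i 1) := by
  simp [direction]

theorem coL_direction (a d : Fin 4) : coL a (direction d) = if a = d then 1 else 0 := by
  refine Fin.cases ?_ (fun i => ?_) a
  · refine Fin.cases ?_ (fun i' => ?_) d
    · simp [direction_zero]
    · simp [direction_succ, (Fin.succ_ne_zero i').symm]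
  · refine Fin.cases ?_ (fun i' => ?_) d
    · simp [direction_zero]
    · simp only [direction_succ, coL_succ, Fin.succ_inj]
      rw [Pi.single_apply]

/-- a tensor product of derivatives -/
noncomputable def tens (G : Fin 4 → ℝ → ℝ) (n : Fin 4 → ℕ) (p : Pt) : ℝ :=
  ∏ a, iteratedDeriv (n a) (G a) (coL a p)

theorem hasFDerivAt_tens {G : Fin 4 → ℝ → ℝ} (hG : ∀ a, ContDiff ℝ ∞ (G a)) (n : Fin 4 → ℕ)
    (p : Pt) :
    HasFDerivAt (tens G n)
      (∑ a, (∏ b ∈ univ.erase a, iteratedDeriv (n b) (G b) (coL b p)) •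
        (iteratedDeriv (n a + 1) (G a) (coL a p) • coL a)) p := by
  have h : ∀ a ∈ (univ : Finset (Fin 4)), HasFDerivAt (fun q : Pt => iteratedDeriv (n a) (G a) (coL a q))
      (iteratedDeriv (n a + 1) (G a) (coL a p) • coL a) p := by
    intro a _
    exact (iteratedDeriv_hasDerivAt (hG a) (n a) (coL a p)).comp_hasFDerivAt p (coL a).hasFDerivAt
  exact HasFDerivAt.finsetProd h

theorem fderiv_tens_direction {G : Fin 4 → ℝ → ℝ} (hG : ∀ a, ContDiff ℝ ∞ (G a))
    (n : Fin 4 → ℕ) (p : Pt) (d : Fin 4) :
    fderiv ℝ (tens G n) p (direction d) = tens G (Function.update n d (n d + 1)) p := by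
  rw [(hasFDerivAt_tens hG n p).fderiv]
  simp only [ContinuousLinearMap.coe_sum', Finset.sum_apply, ContinuousLinearMap.smul_apply,
    smul_eq_mul, coL_direction]
  rw [Finset.sum_eq_single d]
  · simp only [if_true, mul_one]
    unfold tens
    rw [← Finset.mul_prod_erase univ _ (Finset.mem_univ d)]
    simp only [Function.update_self]
    rw [mul_comm]
    congr 1
    refine Finset.prod_congr rfl fun b hb => ?_
    rw [Function.update_of_ne (Finset.ne_of_mem_erase hb)]
  · intro b _ hb
    simp [hb]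
  · intro h
    exact absurd (Finset.mem_univ d) h

theorem tens_contDiff {G : Fin 4 → ℝ → ℝ} (hG : ∀ a, ContDiff ℝ ∞ (G a)) (n : Fin 4 → ℕ) :
    ContDiff ℝ ∞ (tens G n) := by
  unfold tens
  refine contDiff_prod fun a _ => ?_
  exact (iteratedDeriv_contDiff (hG a) (n a)).comp (coL a).contDiff

/-- adding the directions of a list to the derivative orders -/
def addc (n : Fin 4 → ℕ) (ds : List (Fin 4)) : Fin 4 → ℕ := fun a => n a + ds.count a

theorem addc_nil (n : Fin 4 → ℕ) : addc n [] = n := by
  funext a; simp [addc]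

theorem addc_cons (n : Fin 4 → ℕ) (d : Fin 4) (ds : List (Fin 4)) :
    addc n (d :: ds) = Function.update (addc n ds) d (addc n ds d + 1) := by
  funext a
  by_cases h : a = d
  · subst h
    simp [addc, Nat.add_assoc]
  · have h' : d ≠ a := fun e => h e.symm
    simp [addc, Function.update_of_ne h, List.count_cons, h']

/-- a field in one coordinate direction given by a tensor -/
noncomputable def W (G : Fin 4 → ℝ → ℝ) (n : Fin 4 → ℕ) (j : Fin 3) : Field :=
  fun p => Pi.single j (tens G n p)

theorem W_contDiff {G : Fin 4 → ℝ → ℝ} (hG : ∀ a, ContDiff ℝ ∞ (G a)) (n : Fin 4 → ℕ) (j : Fin 3) :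
    ContDiff ℝ ∞ (W G n j) := by
  have : W G n j = (ContinuousLinearMap.single ℝ (fun _ : Fin 3 => ℝ) j) ∘ tens G n := rfl
  rw [this]
  exact (ContinuousLinearMap.single ℝ (fun _ : Fin 3 => ℝ) j).contDiff.comp (tens_contDiff hG n)

theorem fderiv_W {G : Fin 4 → ℝ → ℝ} (hG : ∀ a, ContDiff ℝ ∞ (G a)) (n : Fin 4 → ℕ) (j : Fin 3)
    (p : Pt) (v : Pt) : fderiv ℝ (W G n j) p v = Pi.single j (fderiv ℝ (tens G n) p v) := by
  have h1 := (ContinuousLinearMap.single ℝ (fun _ : Fin 3 => ℝ) j).hasFDerivAt.comp p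
    (hasFDerivAt_tens hG n p).differentiableAt.hasFDerivAt
  have h2 : W G n j = (ContinuousLinearMap.single ℝ (fun _ : Fin 3 => ℝ) j) ∘ tens G n := rfl
  rw [h2, h1.fderiv]
  rfl

theorem mixedDeriv_W {G : Fin 4 → ℝ → ℝ} (hG : ∀ a, ContDiff ℝ ∞ (G a)) (n : Fin 4 → ℕ) (j : Fin 3)
    (ds : List (Fin 4)) : mixedDeriv ds (W G n j) = W G (addc n ds) j := by
  induction ds with
  | nil => rw [addc_nil]; rfl
  | cons d ds ih =>
    funext p
    show fderiv ℝ (mixedDeriv ds (W G n j)) p (direction d) = _
    rw [ih, fderiv_W hG, fderiv_tens_direction hG, addc_cons]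
    rfl

/-! ### computability helpers -/

theorem computable_fin_of {α σ : Type} [Primcodable α] [Primcodable σ] {n : ℕ} {f : α → Fin n → σ}
    (h : ∀ j, Computable (fun a => f a j)) : Computable f := by
  have h1 : Computable (fun a => List.Vector.ofFn (fun i => f a i)) :=
    Computable.vector_ofFn (f := fun i a => f a i) h
  have h2 := (Primrec.of_equiv_symm (e := (Equiv.vectorEquivFin σ n).symm)).to_comp.comp h1
  refine h2.of_eq ?_
  intro a
  funext i
  simp [Equiv.vectorEquivFin]

theorem computable_fin_apply {α σ : Type} [Primcodable α] [Primcodable σ] {n : ℕ}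
    {f : α → Fin n → σ} (h : Computable f) (j : Fin n) : Computable (fun a => f a j) :=
  Computable₂.comp (f := fun (g : Fin n → σ) (i : Fin n) => g i) Computable.fin_app h (Computable.const j)

theorem computable_count (a : Fin 4) : Computable (fun ds : List (Fin 4) => ds.count a) := by
  have h : PrimrecPred (fun x : Fin 4 => x = a) := Primrec.eq.comp Primrec.id (Primrec.const a)
  have h2 := Primrec.list_length.comp (Primrec.listFilter h)
  refine h2.to_comp.of_eq ?_
  intro ds
  rw [List.count_eq_length_filter]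
  congr

/-- rational coordinates -/
def coQ (a : Fin 4) (x : ℚ × (Fin 3 → ℚ)) : ℚ := Fin.cases x.1 x.2 a

theorem coL_ratPoint (a : Fin 4) (x : ℚ × (Fin 3 → ℚ)) :
    coL a ((x.1 : ℝ), ratPoint x.2) = (coQ a x : ℝ) := by
  refine Fin.cases ?_ (fun i => ?_) a
  · rfl
  · rfl

theorem computable_coQ (a : Fin 4) : Computable (coQ a) := by
  refine Fin.cases ?_ (fun i => ?_) a
  · exact Computable.fst
  · exact computable_fin_apply Computable.snd i

/-- the parameter type of an approximation -/
abbrev Par := List (Fin 4) × (ℚ × (Fin 3 → ℚ))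

theorem tens_factor_compReal {G : Fin 4 → ℝ → ℝ} (hG : ∀ a, G1 (G a)) (n : Fin 4 → ℕ) (a : Fin 4) :
    CompReal (fun y : Par => iteratedDeriv (addc n y.1 a) (G a) (coL a ((y.2.1 : ℝ), ratPoint y.2.2))) := by
  have hc : Computable (fun y : Par => (addc n y.1 a, coQ a y.2)) := by
    refine Computable.pair ?_ ((computable_coQ a).comp Computable.snd)
    exact computable_nat_add.comp (Computable.const (n a)) ((computable_count a).comp Computable.fst)
  refine ((hG a).deriv_compReal.comp hc).of_eq ?_
  intro y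
  rw [coL_ratPoint]

theorem tens_compReal {G : Fin 4 → ℝ → ℝ} (hG : ∀ a, G1 (G a)) (n : Fin 4 → ℕ) :
    CompReal (fun y : Par => tens G (addc n y.1) ((y.2.1 : ℝ), ratPoint y.2.2)) := by
  unfold tens
  simp only [Fin.prod_univ_four]
  exact (((tens_factor_compReal hG n 0).mul (tens_factor_compReal hG n 1)).mul
    (tens_factor_compReal hG n 2)).mul (tens_factor_compReal hG n 3)

theorem tens_bound {G : Fin 4 → ℝ → ℝ} {B : Fin 4 → ℕ → ℕ}
    (hB : ∀ a k y, |iteratedDeriv k (G a) y| ≤ B a k) (n : Fin 4 → ℕ) (p : Pt) :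
    |tens G n p| ≤ ((∏ a, B a (n a) : ℕ) : ℝ) := by
  unfold tens
  rw [Finset.abs_prod]
  push_cast
  exact Finset.prod_le_prod (fun _ _ => abs_nonneg _) (fun a _ => hB a _ _)

theorem effective_W {G : Fin 4 → ℝ → ℝ} (hG : ∀ a, G1 (G a)) (n : Fin 4 → ℕ) (j : Fin 3) :
    Effective (W G n j) := by
  have hs : ∀ a, ContDiff ℝ ∞ (G a) := fun a => (hG a).smooth
  obtain ⟨e, he, hspec⟩ := tens_compReal hG n
  choose B hBc _ hBb using fun a => (hG a).bd
  let E : List (Fin 4) × (ℚ × (Fin 3 → ℚ)) × ℕ → (Fin 3 → ℚ) :=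
    fun x k => if k = j then e ((x.1, x.2.1), x.2.2) else 0
  let bound : List (Fin 4) → ℕ := fun ds => ∏ a, B a (addc n ds a)
  refine ⟨E, bound, ?_, ?_, ?_, ?_⟩
  · refine computable_fin_of fun k => ?_
    by_cases hk : k = j
    · simp only [E, hk, if_true]
      refine he.comp ?_
      exact Computable.pair (Computable.pair Computable.fst (Computable.fst.comp Computable.snd))
        (Computable.snd.comp Computable.snd)
    · simp only [E, hk, if_false]
      exact Computable.const 0
  · have hf : ∀ a, Computable (fun ds : List (Fin 4) => B a (addc n ds a)) := fun a =>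
      (hBc a).comp (computable_nat_add.comp (Computable.const (n a)) (computable_count a))
    simp only [bound, Fin.prod_univ_four]
    exact computable_nat_mul.comp (computable_nat_mul.comp (computable_nat_mul.comp (hf 0) (hf 1)) (hf 2)) (hf 3)
  · intro ds t q m k
    rw [mixedDeriv_W hs]
    simp only [W, E]
    by_cases hk : k = j
    · subst hk
      simp only [Pi.single_eq_same, if_true]
      exact hspec (ds, (t, q)) m
    · simp only [Pi.single_eq_of_ne hk, if_neg hk]
      simp only [Rat.cast_zero, sub_zero, abs_zero]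
      exact (one_div_succ_pos m).le
  · intro ds p k
    rw [mixedDeriv_W hs]
    simp only [W, bound]
    by_cases hk : k = j
    · subst hk
      simp only [Pi.single_eq_same]
      exact tens_bound hBb _ p
    · simp only [Pi.single_eq_of_ne hk, abs_zero]
      exact Nat.cast_nonneg _

/-! ### closure under sums -/

theorem mixedDeriv_contDiff {U : Field} (hU : ContDiff ℝ ∞ U) (ds : List (Fin 4)) :
    ContDiff ℝ ∞ (mixedDeriv ds U) := by
  induction ds with
  | nil => exact hU
  | cons d ds ih =>
    have h1 : ContDiff ℝ ∞ (fderiv ℝ (mixedDeriv ds U)) := ih.fderiv_right (by simp)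
    exact h1.clm_apply contDiff_const

theorem mixedDeriv_add {U V : Field} (hU : ContDiff ℝ ∞ U) (hV : ContDiff ℝ ∞ V) (ds : List (Fin 4)) :
    mixedDeriv ds (fun p => U p + V p) = fun p => mixedDeriv ds U p + mixedDeriv ds V p := by
  induction ds with
  | nil => rfl
  | cons d ds ih =>
    funext p
    show fderiv ℝ (mixedDeriv ds (fun p => U p + V p)) p (direction d) = _
    rw [ih]
    have hd1 := ((mixedDeriv_contDiff hU ds).differentiable (by simp)) p
    have hd2 := ((mixedDeriv_contDiff hV ds).differentiable (by simp)) p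
    rw [fderiv_fun_add hd1 hd2]
    rfl

theorem mixedDeriv_neg {U : Field} (hU : ContDiff ℝ ∞ U) (ds : List (Fin 4)) :
    mixedDeriv ds (fun p => - U p) = fun p => - mixedDeriv ds U p := by
  induction ds with
  | nil => rfl
  | cons d ds ih =>
    funext p
    show fderiv ℝ (mixedDeriv ds (fun p => - U p)) p (direction d) = _
    rw [ih, fderiv_fun_neg]
    rfl

theorem effective_add {U V : Field} (hU : ContDiff ℝ ∞ U) (hV : ContDiff ℝ ∞ V)
    (hEU : Effective U) (hEV : Effective V) : Effective (fun p => U p + V p) := by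
  obtain ⟨E1, b1, hE1, hb1, h1, h1'⟩ := hEU
  obtain ⟨E2, b2, hE2, hb2, h2, h2'⟩ := hEV
  let E : List (Fin 4) × (ℚ × (Fin 3 → ℚ)) × ℕ → (Fin 3 → ℚ) :=
    fun x k => E1 (x.1, x.2.1, 2 * x.2.2 + 1) k + E2 (x.1, x.2.1, 2 * x.2.2 + 1) k
  refine ⟨E, fun ds => b1 ds + b2 ds, ?_, computable_nat_add.comp hb1 hb2, ?_, ?_⟩
  · have hm : Computable (fun x : List (Fin 4) × (ℚ × (Fin 3 → ℚ)) × ℕ => (x.1, x.2.1, 2 * x.2.2 + 1)) :=
      Computable.pair Computable.fst (Computable.pair (Computable.fst.comp Computable.snd)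
        ((Primrec.nat_double_succ.to_comp).comp (Computable.snd.comp Computable.snd)))
    refine computable_fin_of fun k => ?_
    exact computable_rat_add.comp (computable_fin_apply (hE1.comp hm) k)
      (computable_fin_apply (hE2.comp hm) k)
  · intro ds t q n k
    rw [mixedDeriv_add hU hV]
    simp only [E]
    have h3 := h1 ds t q (2 * n + 1) k
    have h4 := h2 ds t q (2 * n + 1) k
    push_cast at h3 h4 ⊢
    have e : 1 / (2 * (n : ℝ) + 1 + 1) + 1 / (2 * (n : ℝ) + 1 + 1) = 1 / ((n : ℝ) + 1) := by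
      have hn : (0 : ℝ) ≤ n := Nat.cast_nonneg n
      field_simp
      ring
    rw [← e]
    refine le_trans ?_ (add_le_add h3 h4)
    refine le_trans (le_of_eq ?_) (abs_add_le _ _)
    congr 1
    simp only [Pi.add_apply]
    ring
  · intro ds p k
    rw [mixedDeriv_add hU hV]
    push_cast
    exact (abs_add_le _ _).trans (add_le_add (h1' ds p k) (h2' ds p k))

theorem effective_neg {U : Field} (hU : ContDiff ℝ ∞ U) (hEU : Effective U) :
    Effective (fun p => - U p) := by
  obtain ⟨E1, b1, hE1, hb1, h1, h1'⟩ := hEU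
  refine ⟨fun x k => - E1 x k, b1, ?_, hb1, ?_, ?_⟩
  · refine computable_fin_of fun k => ?_
    exact computable_rat_neg.comp (computable_fin_apply hE1 k)
  · intro ds t q n k
    rw [mixedDeriv_neg hU]
    have h3 := h1 ds t q n k
    push_cast
    simp only [Pi.neg_apply]
    rw [show - mixedDeriv ds U ((t : ℝ), ratPoint q) k - - (E1 (ds, (t, q), n) k : ℝ)
      = -(mixedDeriv ds U ((t : ℝ), ratPoint q) k - (E1 (ds, (t, q), n) k : ℝ)) by ring, abs_neg]
    exact h3
  · intro ds p k
    rw [mixedDeriv_neg hU]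
    simp only [Pi.neg_apply, abs_neg]
    exact h1' ds p k

theorem effective_zero : Effective (fun _ => (0 : Fin 3 → ℝ)) := by
  have hz : ∀ ds : List (Fin 4), mixedDeriv ds (fun _ => (0 : Fin 3 → ℝ)) = fun _ => 0 := by
    intro ds
    induction ds with
    | nil => rfl
    | cons d ds ih =>
      funext p
      show fderiv ℝ (mixedDeriv ds (fun _ => (0 : Fin 3 → ℝ))) p (direction d) = _
      rw [ih]
      simp
  refine ⟨fun _ _ => 0, fun _ => 0, ?_, Computable.const 0, ?_, ?_⟩
  · exact Computable.const _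
  · intro ds t q n k
    rw [hz]
    simp only [Pi.zero_apply, Rat.cast_zero, sub_zero, abs_zero]
    exact (one_div_succ_pos n).le
  · intro ds p k
    rw [hz]
    simp

end Crest.Agent.Lib.BF
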