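import Mathlib
import Crest.Agent.Lib.BF.Tensor
import Crest.Agent.Lib.BF.Flow

/-!
Elementary moves: fields given by a tensor stream function with a time factor; chains of moves
and the flow they generate.
-/

namespace Crest.Agent.Lib.BF

open Crest.AnalysisR.BoxFlow Set
open scoped ContDiff

/-- three-space -/
abbrev E3 := Fin 3 → ℝ

/-- partial derivative of a tensor stream function -/
noncomputable def dpsi (g : Fin 3 → ℝ → ℝ) (i : Fin 3) (x : E3) : ℝ :=
  ∏ a, iteratedDeriv (if a = i then 1 else 0) (g a) (x a)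

/-- an elementary move -/
structure Mv where
  /-- the direction of the velocity -/
  j : Fin 3
  /-- the direction of the shear variable -/
  l : Fin 3
  hjl : j ≠ l
  /-- the tensor factors of the stream function -/
  g : Fin 3 → ℝ → ℝ
  hg : ∀ a, G1 (g a)
  /-- a radius outside which the factors vanish -/
  R : ℝ
  hv : ∀ a, Vanish R (g a)

/-- the autonomous field of a move -/
noncomputable def Mv.V (m : Mv) (x : E3) : E3 :=
  Pi.single m.j (dpsi m.g m.l x) - Pi.single m.l (dpsi m.g m.j x)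

/-- tensor data of a move -/
noncomputable def Gof (τ : ℝ → ℝ) (g : Fin 3 → ℝ → ℝ) : Fin 4 → ℝ → ℝ := Fin.cases τ g

/-- derivative orders of the field components -/
def nof (i : Fin 3) : Fin 4 → ℕ := Fin.cases 1 (fun a => if a = i then 1 else 0)

theorem tens_Gof_nof (τ : ℝ → ℝ) (g : Fin 3 → ℝ → ℝ) (i : Fin 3) (p : Pt) :
    tens (Gof τ g) (nof i) p = deriv τ p.1 * dpsi g i p.2 := by
  unfold tens dpsi
  rw [Fin.prod_univ_succ]
  simp [Gof, nof, iteratedDeriv_one]

/-- the time-dependent field of a move with time factor `τ'` -/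
noncomputable def Mv.U (m : Mv) (τ : ℝ → ℝ) : Field := fun p => deriv τ p.1 • m.V p.2

theorem Mv.U_eq (m : Mv) (τ : ℝ → ℝ) :
    m.U τ = fun p => W (Gof τ m.g) (nof m.l) m.j p + - W (Gof τ m.g) (nof m.j) m.l p := by
  funext p
  unfold Mv.U Mv.V W
  simp only [tens_Gof_nof]
  funext k
  simp only [Pi.smul_apply, Pi.sub_apply, Pi.add_apply, Pi.neg_apply, smul_eq_mul, Pi.single_apply]
  split_ifs <;> ring

theorem Gof_G1 {τ : ℝ → ℝ} (hτ : G1 τ) {g : Fin 3 → ℝ → ℝ} (hg : ∀ a, G1 (g a)) (a : Fin 4) :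
    G1 (Gof τ g a) := by
  refine Fin.cases ?_ (fun i => ?_) a
  · exact hτ
  · exact hg i

/-- good fields -/
structure EffF (U : Field) : Prop where
  smooth : ContDiff ℝ ∞ U
  comp : HasCompactSupport U
  eff : Effective U
  time : ∀ p : ℝ × (Fin 3 → ℝ), p.1 ∉ Icc (1 / 4 : ℝ) (3 / 4) → U p = 0
  div : ∀ p, spaceDiv U p = 0

theorem EffF.zero : EffF (fun _ => (0 : Fin 3 → ℝ)) where
  smooth := contDiff_const
  comp := HasCompactSupport.zero
  eff := effective_zero
  time := fun _ _ => rfl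
  div := fun p => by simp [spaceDiv]

theorem EffF.add {U V : Field} (hU : EffF U) (hV : EffF V) : EffF (fun p => U p + V p) where
  smooth := hU.smooth.add hV.smooth
  comp := hU.comp.add hV.comp
  eff := effective_add hU.smooth hV.smooth hU.eff hV.eff
  time := fun p hp => by rw [hU.time p hp, hV.time p hp, add_zero]
  div := fun p => by
    have h1 := (hU.smooth.differentiable (by simp)) p
    have h2 := (hV.smooth.differentiable (by simp)) p
    have := hU.div p
    have h3 := hV.div p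
    unfold spaceDiv at this h3 ⊢
    rw [fderiv_fun_add h1 h2]
    simp only [ContinuousLinearMap.add_apply, Pi.add_apply]
    rw [Finset.sum_add_distrib, this, h3, add_zero]

theorem nof_update_comm {j l : Fin 3} (h : j ≠ l) :
    Function.update (nof l) j.succ (nof l j.succ + 1) = Function.update (nof j) l.succ (nof j l.succ + 1) := by
  funext a
  refine Fin.cases ?_ (fun i => ?_) a
  · simp [Function.update_apply, nof, (Fin.succ_ne_zero _).symm]
  · by_cases h1 : i = j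
    · subst h1
      simp [Function.update_apply, nof, h]
    · by_cases h2 : i = l
      · subst h2
        simp [nof, h1]
      · simp [nof, h1, h2]

theorem direction_eq_succ (a : Fin 3) : ((0 : ℝ), (Pi.single a 1 : Fin 3 → ℝ)) = direction a.succ :=
  (direction_succ a).symm

theorem Mv.spaceDiv_U (m : Mv) {τ : ℝ → ℝ} (hτ : G1 τ) (p : ℝ × (Fin 3 → ℝ)) :
    spaceDiv (m.U τ) p = 0 := by
  have hs : ∀ a, ContDiff ℝ ∞ (Gof τ m.g a) := fun a => (Gof_G1 hτ m.hg a).smooth
  have h1 := ((W_contDiff hs (nof m.l) m.j).differentiable (by simp)) p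
  have h2 := ((W_contDiff hs (nof m.j) m.l).differentiable (by simp)) p
  unfold spaceDiv
  rw [Mv.U_eq]
  have h3 : ∀ a : Fin 3, fderiv ℝ (fun p => W (Gof τ m.g) (nof m.l) m.j p +
      - W (Gof τ m.g) (nof m.j) m.l p) p (0, Pi.single a 1) a =
      (Pi.single m.j (tens (Gof τ m.g) (Function.update (nof m.l) a.succ (nof m.l a.succ + 1)) p) : Fin 3 → ℝ) a -
      (Pi.single m.l (tens (Gof τ m.g) (Function.update (nof m.j) a.succ (nof m.j a.succ + 1)) p) : Fin 3 → ℝ) a := by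
    intro a
    rw [fderiv_fun_add h1 h2.fun_neg, fderiv_fun_neg]
    simp only [ContinuousLinearMap.add_apply, ContinuousLinearMap.neg_apply, Pi.add_apply, Pi.neg_apply]
    rw [direction_eq_succ, fderiv_W hs, fderiv_W hs, fderiv_tens_direction hs, fderiv_tens_direction hs]
    ring
  simp only [h3]
  rw [Finset.sum_sub_distrib]
  simp only [Pi.single_apply, Finset.sum_ite_eq', Finset.mem_univ, if_true]
  rw [nof_update_comm m.hjl, sub_self]

theorem dpsi_eq_zero {g : Fin 3 → ℝ → ℝ} {R : ℝ} (hv : ∀ a, Vanish R (g a)) (i : Fin 3) {x : E3}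
    {a : Fin 3} (ha : R < |x a|) : dpsi g i x = 0 := by
  unfold dpsi
  refine Finset.prod_eq_zero (Finset.mem_univ a) ?_
  exact (hv a).iteratedDeriv_eq_zero _ ha

theorem Mv.V_eq_zero (m : Mv) {x : E3} {a : Fin 3} (ha : m.R < |x a|) : m.V x = 0 := by
  unfold Mv.V
  rw [dpsi_eq_zero m.hv _ ha, dpsi_eq_zero m.hv _ ha]
  simp

theorem Mv.effF (m : Mv) {τ : ℝ → ℝ} (hτ : G1 τ) {t0 t1 : ℝ}
    (hwin : Icc t0 t1 ⊆ Icc (1 / 4 : ℝ) (3 / 4)) (hd : ∀ t, t ∉ Icc t0 t1 → deriv τ t = 0) :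
    EffF (m.U τ) := by
  have hG := Gof_G1 hτ m.hg
  have hs : ∀ a, ContDiff ℝ ∞ (Gof τ m.g a) := fun a => (hG a).smooth
  have hW1 := W_contDiff hs (nof m.l) m.j
  have hW2 := W_contDiff hs (nof m.j) m.l
  refine ⟨?_, ?_, ?_, ?_, m.spaceDiv_U hτ⟩
  · rw [Mv.U_eq]
    exact hW1.add hW2.neg
  · refine HasCompactSupport.intro
      (K := Icc t0 t1 ×ˢ Set.pi Set.univ (fun _ : Fin 3 => Icc (-m.R) m.R))
      (isCompact_Icc.prod (isCompact_univ_pi fun _ => isCompact_Icc)) ?_
    rintro ⟨t, x⟩ hp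
    by_cases ht : t ∈ Icc t0 t1
    · have hx : x ∉ Set.pi Set.univ (fun _ : Fin 3 => Icc (-m.R) m.R) := fun hx => hp ⟨ht, hx⟩
      simp only [Set.mem_pi, Set.mem_univ, forall_true_left, not_forall] at hx
      obtain ⟨a, ha⟩ := hx
      have ha' : m.R < |x a| := by
        by_contra hcon
        exact ha (abs_le.1 (not_lt.1 hcon))
      simp only [Mv.U]
      rw [m.V_eq_zero ha', smul_zero]
    · simp only [Mv.U]
      rw [hd t ht, zero_smul]
  · rw [Mv.U_eq]
    exact effective_add hW1 hW2.neg (effective_W hG _ _) (effective_neg hW2 (effective_W hG _ _))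
  · intro p hp
    simp only [Mv.U]
    rw [hd p.1 (fun h => hp (hwin h)), zero_smul]

/-! ### time factors -/

/-- time factors: the step from `0` to `1` on the `k`-th window -/
noncomputable def tauF (N k : ℕ) : ℝ → ℝ :=
  fun t => sst (((2 * N : ℚ) : ℝ) * t + ((-(N : ℚ) / 2 - k : ℚ) : ℝ))

/-- the starting time of the `k`-th window -/
noncomputable def Tk (N k : ℕ) : ℝ := 1 / 4 + k / (2 * N)

theorem tauF_G1 (N k : ℕ) : G1 (tauF N k) := G1_sst.comp_affine _ _

theorem tauF_arg {N : ℕ} (hN : 0 < N) (k : ℕ) (t : ℝ) :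
    ((2 * N : ℚ) : ℝ) * t + ((-(N : ℚ) / 2 - k : ℚ) : ℝ) = 2 * N * (t - Tk N k) := by
  have hNR : (N : ℝ) ≠ 0 := by exact_mod_cast hN.ne'
  unfold Tk
  push_cast
  field_simp
  ring

theorem deriv_sst_eq_zero {y : ℝ} (h : y ≤ 0 ∨ 1 ≤ y) : deriv sst y = 0 := by
  have hcont : Continuous (deriv sst) :=
    (sst_contDiff (n := (1 : ℕ∞))).continuous_deriv (by simp)
  have hclosed : IsClosed {z : ℝ | deriv sst z = 0} := isClosed_eq hcont continuous_const
  rcases h with h | h
  · have hsub : Iio (0 : ℝ) ⊆ {z : ℝ | deriv sst z = 0} := by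
      intro z hz
      have hev : sst =ᶠ[nhds z] fun _ => (0 : ℝ) := by
        filter_upwards [Iio_mem_nhds hz] with w hw
        exact sst_of_nonpos (le_of_lt hw)
      simp only [Set.mem_setOf_eq, hev.deriv_eq, deriv_const]
    have : y ∈ closure (Iio (0 : ℝ)) := by rw [closure_Iio]; exact h
    exact hclosed.closure_subset_iff.2 hsub this
  · have hsub : Ioi (1 : ℝ) ⊆ {z : ℝ | deriv sst z = 0} := by
      intro z hz
      have hev : sst =ᶠ[nhds z] fun _ => (1 : ℝ) := by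
        filter_upwards [Ioi_mem_nhds hz] with w hw
        exact sst_of_one_le (le_of_lt hw)
      simp only [Set.mem_setOf_eq, hev.deriv_eq, deriv_const]
    have : y ∈ closure (Ioi (1 : ℝ)) := by rw [closure_Ioi]; exact h
    exact hclosed.closure_subset_iff.2 hsub this

theorem Tk_le {N : ℕ} (hN : 0 < N) {a b : ℕ} (h : a ≤ b) : Tk N a ≤ Tk N b := by
  unfold Tk
  have hNR : (0 : ℝ) < N := by exact_mod_cast hN
  have : (a : ℝ) ≤ b := by exact_mod_cast h
  gcongr

theorem Tk_succ_arg {N : ℕ} (hN : 0 < N) (k : ℕ) (t : ℝ) :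
    2 * (N : ℝ) * (t - Tk N k) = 2 * (N : ℝ) * (t - Tk N (k + 1)) + 1 := by
  have hNR : (N : ℝ) ≠ 0 := by exact_mod_cast hN.ne'
  unfold Tk
  push_cast
  field_simp
  ring

theorem tauF_eq_zero {N : ℕ} (hN : 0 < N) (k : ℕ) {t : ℝ} (h : t ≤ Tk N k) : tauF N k t = 0 := by
  unfold tauF
  rw [tauF_arg hN]
  have hNR : (0 : ℝ) < N := by exact_mod_cast hN
  apply sst_of_nonpos
  exact mul_nonpos_of_nonneg_of_nonpos (by positivity) (by linarith)

theorem tauF_eq_one {N : ℕ} (hN : 0 < N) (k : ℕ) {t : ℝ} (h : Tk N (k + 1) ≤ t) : tauF N k t = 1 := by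
  unfold tauF
  rw [tauF_arg hN, Tk_succ_arg hN]
  have hNR : (0 : ℝ) < N := by exact_mod_cast hN
  apply sst_of_one_le
  have := mul_nonneg (by positivity : (0 : ℝ) ≤ 2 * N) (by linarith : 0 ≤ t - Tk N (k + 1))
  linarith

theorem tauF_mem (N k : ℕ) (t : ℝ) : tauF N k t ∈ Icc (0 : ℝ) 1 :=
  ⟨sst_nonneg _, sst_le_one _⟩

theorem tauF_hasDerivAt (N k : ℕ) (t : ℝ) :
    HasDerivAt (tauF N k) (deriv (tauF N k) t) t :=
  ((tauF_G1 N k).smooth.differentiable (by simp) t).hasDerivAt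

theorem deriv_tauF (N k : ℕ) (t : ℝ) :
    deriv (tauF N k) t = deriv sst (((2 * N : ℚ) : ℝ) * t + ((-(N : ℚ) / 2 - k : ℚ) : ℝ)) * ((2 * N : ℚ) : ℝ) := by
  have h1 : HasDerivAt (fun t : ℝ => ((2 * N : ℚ) : ℝ) * t + ((-(N : ℚ) / 2 - k : ℚ) : ℝ))
      ((2 * N : ℚ) : ℝ) t := by
    simpa using ((hasDerivAt_id t).const_mul ((2 * N : ℚ) : ℝ)).add_const ((-(N : ℚ) / 2 - k : ℚ) : ℝ)
  have h2 : HasDerivAt sst (deriv sst (((2 * N : ℚ) : ℝ) * t + ((-(N : ℚ) / 2 - k : ℚ) : ℝ)))
      (((2 * N : ℚ) : ℝ) * t + ((-(N : ℚ) / 2 - k : ℚ) : ℝ)) :=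
    ((sst_contDiff (n := (1 : ℕ∞))).differentiable (by simp) _).hasDerivAt
  exact (h2.comp t h1).deriv

theorem deriv_tauF_eq_zero {N : ℕ} (hN : 0 < N) (k : ℕ) {t : ℝ}
    (h : t ≤ Tk N k ∨ Tk N (k + 1) ≤ t) : deriv (tauF N k) t = 0 := by
  rw [deriv_tauF, deriv_sst_eq_zero, zero_mul]
  rw [tauF_arg hN]
  have hNR : (0 : ℝ) < N := by exact_mod_cast hN
  rcases h with h | h
  · left
    exact mul_nonpos_of_nonneg_of_nonpos (by positivity) (by linarith)
  · right
    rw [Tk_succ_arg hN]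
    have := mul_nonneg (by positivity : (0 : ℝ) ≤ 2 * N) (by linarith : 0 ≤ t - Tk N (k + 1))
    linarith

theorem Tk_window {N : ℕ} (hN : 0 < N) {k : ℕ} (hk : k + 1 ≤ N) :
    Icc (Tk N k) (Tk N (k + 1)) ⊆ Icc (1 / 4 : ℝ) (3 / 4) := by
  have hNR : (0 : ℝ) < N := by exact_mod_cast hN
  apply Icc_subset_Icc
  · unfold Tk
    have : (0 : ℝ) ≤ k / (2 * N) := by positivity
    linarith
  · unfold Tk
    have h1 : ((k + 1 : ℕ) : ℝ) / (2 * N) ≤ 1 / 2 := by
      rw [div_le_iff₀ (by positivity)]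
      have : ((k + 1 : ℕ) : ℝ) ≤ N := by exact_mod_cast hk
      linarith
    linarith

/-! ### chains -/

/-- the field of a chain of moves on successive windows -/
noncomputable def Uchain (N : ℕ) : ℕ → List Mv → Field
  | _, [] => fun _ => 0
  | o, m :: L => fun p => m.U (tauF N o) p + Uchain N (o + 1) L p

theorem Uchain_effF {N : ℕ} (hN : 0 < N) (L : List Mv) :
    ∀ o, o + L.length ≤ N → EffF (Uchain N o L) := by
  induction L with
  | nil => intro o _; exact EffF.zero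
  | cons m L ih =>
    intro o ho
    simp only [List.length_cons] at ho
    have h1 : EffF (m.U (tauF N o)) := by
      have hw : Icc (Tk N o) (Tk N (o + 1)) ⊆ Icc (1 / 4 : ℝ) (3 / 4) :=
        Tk_window hN (k := o) (by omega)
      refine m.effF (tauF_G1 N o) hw ?_
      intro t ht
      apply deriv_tauF_eq_zero hN
      by_contra hcon
      push Not at hcon
      exact ht ⟨hcon.1.le, hcon.2.le⟩
    exact h1.add (ih (o + 1) (by omega))

theorem Uchain_eq_zero {N : ℕ} (hN : 0 < N) (L : List Mv) :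
    ∀ o (t : ℝ) (x : E3), t ≤ Tk N o → Uchain N o L (t, x) = 0 := by
  induction L with
  | nil => intro o t x _; rfl
  | cons m L ih =>
    intro o t x ht
    simp only [Uchain, Mv.U]
    rw [deriv_tauF_eq_zero hN o (Or.inl ht), zero_smul, zero_add]
    exact ih (o + 1) t x (ht.trans (Tk_le hN (Nat.le_succ o)))

/-- one step of a chain: the field `m.V` moves each point of a neighbourhood of `K i` along the
straight segment from `x` to `A i x` with constant velocity. -/
def Step {n : ℕ} (m : Mv) (K K' : Fin n → Set E3) (A : Fin n → E3 → E3) : Prop :=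
  ∀ i, Continuous (A i) ∧ (∀ x ∈ K i, A i x ∈ K' i) ∧
    ∃ O, IsOpen O ∧ K i ⊆ O ∧ ∀ x ∈ O, ∀ σ ∈ Icc (0 : ℝ) 1,
      m.V (x + σ • (A i x - x)) = A i x - x

/-- chains of steps -/
inductive Reach {n : ℕ} : (Fin n → Set E3) → (Fin n → Set E3) → (Fin n → E3 → E3) → List Mv → Prop
  | nil {K K' : Fin n → Set E3} (h : ∀ i, K i ⊆ K' i) : Reach K K' (fun _ => id) []
  | cons {m : Mv} {K K1 K2 : Fin n → Set E3} {A1 A2 : Fin n → E3 → E3} {L : List Mv} :
      Step m K K1 A1 → Reach K1 K2 A2 L → Reach K K2 (fun i => A2 i ∘ A1 i) (m :: L)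

theorem Step.mono_left {n : ℕ} {m : Mv} {K0 K K' : Fin n → Set E3} {A : Fin n → E3 → E3}
    (h : Step m K K' A) (h0 : ∀ i, K0 i ⊆ K i) : Step m K0 K' A := by
  intro i
  obtain ⟨h1, h2, O, hO, hKO, hV⟩ := h i
  exact ⟨h1, fun x hx => h2 x (h0 i hx), O, hO, (h0 i).trans hKO, hV⟩

theorem Reach.mono_left {n : ℕ} {K0 K K' : Fin n → Set E3} {A : Fin n → E3 → E3} {L : List Mv}
    (h : Reach K K' A L) (h0 : ∀ i, K0 i ⊆ K i) : Reach K0 K' A L := by
  cases h with
  | nil h1 => exact Reach.nil fun i => (h0 i).trans (h1 i)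
  | cons hs hr => exact Reach.cons (hs.mono_left h0) hr

theorem Reach.append {n : ℕ} {K K1 K2 : Fin n → Set E3} {A B : Fin n → E3 → E3} {L L' : List Mv}
    (h1 : Reach K K1 A L) (h2 : Reach K1 K2 B L') :
    Reach K K2 (fun i => B i ∘ A i) (L ++ L') := by
  induction h1 with
  | nil h0 =>
    have := h2.mono_left h0
    simpa using this
  | cons hs _ ih =>
    have := Reach.cons hs (ih h2)
    simpa [Function.comp_def] using this

/-- explicit trajectories for a chain -/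
theorem Reach.traj {n : ℕ} {K K' : Fin n → Set E3} {A : Fin n → E3 → E3} {L : List Mv}
    (h : Reach K K' A L) {N : ℕ} (hN : 0 < N) (o : ℕ) (i : Fin n) :
    ∃ O, IsOpen O ∧ K i ⊆ O ∧ ∀ x ∈ O, ∃ γ : ℝ → E3, (∀ t ≤ Tk N o, γ t = x) ∧
      (∀ t, Tk N (o + L.length) ≤ t → γ t = A i x) ∧
      ∀ t, HasDerivAt γ (Uchain N o L (t, γ t)) t := by
  induction h generalizing o with
  | nil _ =>
    refine ⟨Set.univ, isOpen_univ, Set.subset_univ _, fun x _ => ⟨fun _ => x, fun _ _ => rfl, fun _ _ => rfl, ?_⟩⟩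
    intro t
    exact hasDerivAt_const t x
  | @cons m K K1 K2 A1 A2 L hs _ ih =>
    obtain ⟨hc, hmaps, O1, hO1, hK1, hV⟩ := hs i
    obtain ⟨O2, hO2, hK2, hγ⟩ := ih (o + 1)
    refine ⟨O1 ∩ (A1 i) ⁻¹' O2, hO1.inter (hO2.preimage hc), ?_, ?_⟩
    · intro x hx
      exact ⟨hK1 hx, hK2 (hmaps x hx)⟩
    rintro x ⟨hxO1, hxO2⟩
    obtain ⟨γ2, hγ1, hγ3, hγ4⟩ := hγ _ hxO2
    set y := A1 i x with hy
    have hT : Tk N o ≤ Tk N (o + 1) := Tk_le hN (Nat.le_succ o)
    refine ⟨fun t => x + tauF N o t • (y - x) + (γ2 t - y), ?_, ?_, ?_⟩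
    · intro t ht
      simp only
      rw [tauF_eq_zero hN o ht, hγ1 t (ht.trans hT)]
      simp
    · intro t ht
      simp only [List.length_cons] at ht
      have e : o + (L.length + 1) = o + 1 + L.length := by omega
      rw [e] at ht
      have ht2 : Tk N (o + 1) ≤ t := (Tk_le hN (Nat.le_add_right _ _)).trans ht
      simp only
      rw [tauF_eq_one hN o ht2, hγ3 t ht]
      simp only [one_smul, Function.comp]
      abel
    · intro t
      have h1 : HasDerivAt (fun t => x + tauF N o t • (y - x) + (γ2 t - y))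
          (deriv (tauF N o) t • (y - x) + Uchain N (o + 1) L (t, γ2 t)) t := by
        have h2 := ((tauF_hasDerivAt N o t).smul_const (y - x)).const_add x
        have h3 := (hγ4 t).sub_const y
        exact h2.add h3
      refine h1.congr_deriv ?_
      simp only [Uchain, Mv.U]
      rcases le_total t (Tk N (o + 1)) with ht | ht
      · -- during our window
        rw [hγ1 t ht]
        simp only [sub_self, add_zero]
        rw [Uchain_eq_zero hN L (o + 1) t y ht, Uchain_eq_zero hN L (o + 1) t _ ht]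
        simp only [add_zero]
        rw [hV x hxO1 (tauF N o t) (tauF_mem N o t)]
      · -- later
        rw [tauF_eq_one hN o ht, deriv_tauF_eq_zero hN o (Or.inr ht)]
        simp only [one_smul, zero_smul, zero_add]
        congr 2
        abel

/-- the flow generated by a chain of moves -/
theorem Reach.flow {n : ℕ} {K K' : Fin n → Set E3} {A : Fin n → E3 → E3} {L : List Mv}
    (h : Reach K K' A L) :
    ∃ (U : Field) (Φ : ℝ → E3 → E3), ContDiff ℝ ∞ U ∧ HasCompactSupport U ∧ Effective U ∧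
      (∀ p : ℝ × (Fin 3 → ℝ), p.1 ∉ Icc (1 / 4 : ℝ) (3 / 4) → U p = 0) ∧
      (∀ p, spaceDiv U p = 0) ∧ IsFlow U Φ ∧
      ∀ i, ∃ O, IsOpen O ∧ K i ⊆ O ∧ ∀ x ∈ O, Φ 1 x = A i x := by
  have hN : 0 < L.length + 1 := Nat.succ_pos _
  have hE := Uchain_effF hN L 0 (by omega)
  obtain ⟨Φ, hΦ, huniq⟩ := exists_flow hE.smooth hE.comp hE.time
  refine ⟨Uchain (L.length + 1) 0 L, Φ, hE.smooth, hE.comp, hE.eff, hE.time, hE.div, hΦ, ?_⟩
  intro i
  obtain ⟨O, hO, hKO, hγ⟩ := h.traj hN 0 i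
  refine ⟨O, hO, hKO, fun x hx => ?_⟩
  obtain ⟨γ, h1, h2, h3⟩ := hγ x hx
  have hT0 : (0 : ℝ) ≤ Tk (L.length + 1) 0 := by
    unfold Tk; positivity
  have hT1 : Tk (L.length + 1) (0 + L.length) ≤ 1 := by
    have hNR : (0 : ℝ) < ((L.length + 1 : ℕ) : ℝ) := by exact_mod_cast hN
    unfold Tk
    have h4 : ((0 + L.length : ℕ) : ℝ) / (2 * ((L.length + 1 : ℕ) : ℝ)) ≤ 1 / 2 := by
      rw [div_le_iff₀ (by positivity)]
      push_cast
      linarith
    linarith
  rw [huniq x γ (h1 0 hT0) h3, h2 1 hT1]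

end Crest.Agent.Lib.BF
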