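import Mathlib
import Crest.Agent.Lib.BF.Moves

/-!
The shear moves: the stream function is a tensor of plateau functions times a quadratic
polynomial in one variable.
-/

namespace Crest.Agent.Lib.BF

open Crest.AnalysisR.BoxFlow Set
open scoped ContDiff

/-- plateau function: `1` on `[P-ε, Q+ε]`, `0` outside `(P-2ε, Q+2ε)`. -/
noncomputable def plat (P Q ε : ℚ) (y : ℝ) : ℝ :=
  sst (((1 / ε : ℚ) : ℝ) * y + (((2 * ε - P) / ε : ℚ) : ℝ)) *
    sst (((-1 / ε : ℚ) : ℝ) * y + (((Q + 2 * ε) / ε : ℚ) : ℝ))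

theorem plat_G1 (P Q ε : ℚ) : G1 (plat P Q ε) :=
  (G1_sst.comp_affine _ _).mul (G1_sst.comp_affine _ _)

theorem plat_eq_one {P Q ε : ℚ} (hε : 0 < ε) {y : ℝ} (h1 : (P : ℝ) - ε ≤ y) (h2 : y ≤ (Q : ℝ) + ε) :
    plat P Q ε y = 1 := by
  have hεR : (0 : ℝ) < ε := by exact_mod_cast hε
  unfold plat
  rw [sst_of_one_le, sst_of_one_le, one_mul]
  · push_cast
    have : (-1 / (ε : ℝ)) * y + ((Q : ℝ) + 2 * ε) / ε = ((Q : ℝ) + 2 * ε - y) / ε := by
      field_simp
      ring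
    rw [this, le_div_iff₀ hεR]
    linarith
  · push_cast
    have : (1 / (ε : ℝ)) * y + (2 * (ε : ℝ) - P) / ε = (y + 2 * ε - P) / ε := by
      field_simp
      ring
    rw [this, le_div_iff₀ hεR]
    linarith

theorem plat_eq_zero {P Q ε : ℚ} (hε : 0 < ε) {y : ℝ}
    (h : y ≤ (P : ℝ) - 2 * ε ∨ (Q : ℝ) + 2 * ε ≤ y) : plat P Q ε y = 0 := by
  have hεR : (0 : ℝ) < ε := by exact_mod_cast hε
  unfold plat
  rcases h with h | h
  · rw [sst_of_nonpos, zero_mul]
    push_cast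
    have : (1 / (ε : ℝ)) * y + (2 * (ε : ℝ) - P) / ε = (y + 2 * ε - P) / ε := by
      field_simp
      ring
    rw [this, div_le_iff₀ hεR]
    linarith
  · rw [sst_of_nonpos (x := ((-1 / ε : ℚ) : ℝ) * y + (((Q + 2 * ε) / ε : ℚ) : ℝ)), mul_zero]
    push_cast
    have : (-1 / (ε : ℝ)) * y + ((Q : ℝ) + 2 * ε) / ε = ((Q : ℝ) + 2 * ε - y) / ε := by
      field_simp
      ring
    rw [this, div_le_iff₀ hεR]
    linarith

theorem plat_vanish {P Q ε : ℚ} (hε : 0 < ε) {R : ℝ}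
    (hR1 : |(P : ℝ)| + 2 * ε ≤ R) (hR2 : |(Q : ℝ)| + 2 * ε ≤ R) : Vanish R (plat P Q ε) := by
  intro y hy
  apply plat_eq_zero hε
  have h1 := neg_abs_le (P : ℝ)
  have h2 := le_abs_self (Q : ℝ)
  rcases lt_abs.1 hy with h | h
  · right; linarith
  · left; linarith

/-- the shear factor: a quadratic polynomial times a plateau -/
noncomputable def glin (α β P Q ε : ℚ) (y : ℝ) : ℝ :=
  (α : ℝ) * (y * plat P Q ε y) + ((β / 2 : ℚ) : ℝ) * (y * (y * plat P Q ε y))

theorem vanish_mul_id {R : ℝ} {f : ℝ → ℝ} (h : Vanish R f) : Vanish R (fun y => y * f y) := by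
  intro y hy
  simp only [h y hy, mul_zero]

theorem glin_G1 {α β P Q ε : ℚ} (hε : 0 < ε) : G1 (glin α β P Q ε) := by
  obtain ⟨R, hR1, hR2⟩ : ∃ R : ℝ, |(P : ℝ)| + 2 * ε ≤ R ∧ |(Q : ℝ)| + 2 * ε ≤ R :=
    ⟨max (|(P : ℝ)| + 2 * ε) (|(Q : ℝ)| + 2 * ε), le_max_left _ _, le_max_right _ _⟩
  have hv := plat_vanish hε hR1 hR2
  have h1 := (plat_G1 P Q ε).mul_id hv
  have h2 := h1.mul_id (vanish_mul_id hv)
  exact ((G1.const α).mul h1).add ((G1.const (β / 2)).mul h2)

theorem glin_vanish {α β P Q ε : ℚ} {R : ℝ} (h : Vanish R (plat P Q ε)) : Vanish R (glin α β P Q ε) := by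
  intro y hy
  simp only [glin, h y hy, mul_zero, add_zero]

/-- the open box -/
def OB (p q : Fin 3 → ℚ) (ε : ℚ) : Set E3 :=
  {x | ∀ a, (p a : ℝ) - ε < x a ∧ x a < (q a : ℝ) + ε}

/-- the closed box -/
def CB (p q : Fin 3 → ℚ) (ε : ℚ) : Set E3 :=
  {x | ∀ a, (p a : ℝ) - 2 * ε ≤ x a ∧ x a ≤ (q a : ℝ) + 2 * ε}

theorem isOpen_OB (p q : Fin 3 → ℚ) (ε : ℚ) : IsOpen (OB p q ε) := by
  unfold OB
  simp only [Set.setOf_forall]
  refine isOpen_iInter_of_finite fun a => ?_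
  exact (isOpen_lt continuous_const (continuous_apply a)).inter
    (isOpen_lt (continuous_apply a) continuous_const)

theorem isClosed_CB (p q : Fin 3 → ℚ) (ε : ℚ) : IsClosed (CB p q ε) := by
  unfold CB
  simp only [Set.setOf_forall]
  refine isClosed_iInter fun a => ?_
  exact (isClosed_le continuous_const (continuous_apply a)).inter
    (isClosed_le (continuous_apply a) continuous_const)

/-- the tensor factors of a shear -/
noncomputable def shearG (p q : Fin 3 → ℚ) (ε : ℚ) (l : Fin 3) (α β : ℚ) (a : Fin 3) : ℝ → ℝ :=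
  if a = l then glin α β (p a) (q a) ε else plat (p a) (q a) ε

/-- the radius of a shear -/
noncomputable def shearR (p q : Fin 3 → ℚ) (ε : ℚ) : ℝ :=
  ∑ a, (|(p a : ℝ)| + |(q a : ℝ)|) + 2 * ε

theorem shearR_bound (p q : Fin 3 → ℚ) (ε : ℚ) (a : Fin 3) :
    |(p a : ℝ)| + |(q a : ℝ)| + 2 * ε ≤ shearR p q ε := by
  unfold shearR
  have := Finset.single_le_sum (f := fun a => |(p a : ℝ)| + |(q a : ℝ)|)
    (fun i _ => by positivity) (Finset.mem_univ a)
  linarith

theorem shearG_G1 {p q : Fin 3 → ℚ} {ε : ℚ} (hε : 0 < ε) (l : Fin 3) (α β : ℚ) (a : Fin 3) :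
    G1 (shearG p q ε l α β a) := by
  unfold shearG
  split_ifs
  · exact glin_G1 hε
  · exact plat_G1 _ _ _

theorem plat_vanish' {p q : Fin 3 → ℚ} {ε : ℚ} (hε : 0 < ε) (a : Fin 3) :
    Vanish (shearR p q ε) (plat (p a) (q a) ε) := by
  have h := shearR_bound p q ε a
  have h1 := abs_nonneg (p a : ℝ)
  have h2 := abs_nonneg (q a : ℝ)
  exact plat_vanish hε (by linarith) (by linarith)

theorem shearG_vanish {p q : Fin 3 → ℚ} {ε : ℚ} (hε : 0 < ε) (l : Fin 3) (α β : ℚ) (a : Fin 3) :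
    Vanish (shearR p q ε) (shearG p q ε l α β a) := by
  unfold shearG
  split_ifs
  · exact glin_vanish (plat_vanish' hε a)
  · exact plat_vanish' hε a

/-- the shear move -/
noncomputable def shearMv (p q : Fin 3 → ℚ) (ε : ℚ) (hε : 0 < ε) (j l : Fin 3) (hjl : j ≠ l)
    (α β : ℚ) : Mv where
  j := j
  l := l
  hjl := hjl
  g := shearG p q ε l α β
  hg := shearG_G1 hε l α β
  R := shearR p q ε
  hv := shearG_vanish hε l α β

/-- the shear map -/
noncomputable def shF (j l : Fin 3) (α β : ℚ) (x : E3) : E3 :=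
  x + Pi.single j ((α : ℝ) + (β : ℝ) * x l)

theorem shF_continuous (j l : Fin 3) (α β : ℚ) : Continuous (shF j l α β) := by
  unfold shF
  refine continuous_id.add ?_
  have h : Continuous (fun x : E3 => (α : ℝ) + (β : ℝ) * x l) :=
    continuous_const.add (continuous_const.mul (continuous_apply l))
  exact (continuous_single j).comp h

theorem mem_nhds_plat {P Q ε : ℚ} (hε : 0 < ε) {y : ℝ} (h1 : (P : ℝ) - ε < y) (h2 : y < (Q : ℝ) + ε) :
    plat P Q ε =ᶠ[nhds y] fun _ => 1 := by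
  filter_upwards [Ioo_mem_nhds h1 h2] with z hz
  exact plat_eq_one hε hz.1.le hz.2.le

theorem plat_nhds_zero {P Q ε : ℚ} (hε : 0 < ε) {y : ℝ}
    (h : y < (P : ℝ) - 2 * ε ∨ (Q : ℝ) + 2 * ε < y) : plat P Q ε =ᶠ[nhds y] fun _ => 0 := by
  rcases h with h | h
  · filter_upwards [Iio_mem_nhds h] with z hz
    exact plat_eq_zero hε (Or.inl (le_of_lt hz))
  · filter_upwards [Ioi_mem_nhds h] with z hz
    exact plat_eq_zero hε (Or.inr (le_of_lt hz))

theorem iteratedDeriv_shearG_zero {p q : Fin 3 → ℚ} {ε : ℚ} (hε : 0 < ε) (l : Fin 3) (α β : ℚ)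
    (a : Fin 3) (k : ℕ) {y : ℝ} (h : y < (p a : ℝ) - 2 * ε ∨ (q a : ℝ) + 2 * ε < y) :
    iteratedDeriv k (shearG p q ε l α β a) y = 0 := by
  have h0 := plat_nhds_zero hε h
  have hev : shearG p q ε l α β a =ᶠ[nhds y] fun _ => 0 := by
    unfold shearG
    split_ifs
    · filter_upwards [h0] with z hz
      simp only [glin, hz, mul_zero, add_zero]
    · exact h0
  rw [hev.iteratedDeriv_eq k]
  simp

theorem dpsi_shear_outside {p q : Fin 3 → ℚ} {ε : ℚ} (hε : 0 < ε) (l : Fin 3) (α β : ℚ) (i : Fin 3)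
    {x : E3} (hx : x ∉ CB p q ε) : dpsi (shearG p q ε l α β) i x = 0 := by
  unfold CB at hx
  simp only [Set.mem_setOf_eq, not_forall] at hx
  obtain ⟨a, ha⟩ := hx
  have ha' : x a < (p a : ℝ) - 2 * ε ∨ (q a : ℝ) + 2 * ε < x a := by
    by_contra hcon
    push Not at hcon
    exact ha ⟨hcon.1, hcon.2⟩
  unfold dpsi
  refine Finset.prod_eq_zero (Finset.mem_univ a) ?_
  exact iteratedDeriv_shearG_zero hε l α β a _ ha'

theorem shearMv_V_outside {p q : Fin 3 → ℚ} {ε : ℚ} (hε : 0 < ε) {j l : Fin 3} (hjl : j ≠ l)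
    (α β : ℚ) {x : E3} (hx : x ∉ CB p q ε) : (shearMv p q ε hε j l hjl α β).V x = 0 := by
  simp only [Mv.V, shearMv]
  rw [dpsi_shear_outside hε l α β _ hx, dpsi_shear_outside hε l α β _ hx]
  simp

theorem dpsi_shear_inside_l {p q : Fin 3 → ℚ} {ε : ℚ} (hε : 0 < ε) (l : Fin 3) (α β : ℚ)
    {x : E3} (hx : x ∈ OB p q ε) :
    dpsi (shearG p q ε l α β) l x = (α : ℝ) + (β : ℝ) * x l := by
  unfold dpsi
  rw [Finset.prod_eq_single l]
  · simp only [if_true, iteratedDeriv_one]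
    -- the factor `l` near `x l`
    have h0 := mem_nhds_plat hε (hx l).1 (hx l).2
    have hev : shearG p q ε l α β l =ᶠ[nhds (x l)]
        fun y => (α : ℝ) * y + ((β / 2 : ℚ) : ℝ) * (y * y) := by
      simp only [shearG, if_true]
      filter_upwards [h0] with z hz
      simp only [glin, hz, mul_one]
    rw [hev.deriv_eq]
    have h1 : HasDerivAt (fun y : ℝ => (α : ℝ) * y + ((β / 2 : ℚ) : ℝ) * (y * y))
        ((α : ℝ) * 1 + ((β / 2 : ℚ) : ℝ) * (1 * x l + x l * 1)) (x l) :=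
      ((hasDerivAt_id' _).const_mul _).add
        (((hasDerivAt_id' _).mul (hasDerivAt_id' _)).const_mul _)
    rw [h1.deriv]
    push_cast
    ring
  · intro a _ ha
    simp only [ha, if_false, iteratedDeriv_zero, shearG]
    exact plat_eq_one hε (hx a).1.le (hx a).2.le
  · intro h
    exact absurd (Finset.mem_univ l) h

theorem dpsi_shear_inside_j {p q : Fin 3 → ℚ} {ε : ℚ} (hε : 0 < ε) {j l : Fin 3} (hjl : j ≠ l)
    (α β : ℚ) {x : E3} (hx : x ∈ OB p q ε) : dpsi (shearG p q ε l α β) j x = 0 := by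
  unfold dpsi
  refine Finset.prod_eq_zero (Finset.mem_univ j) ?_
  simp only [if_true, iteratedDeriv_one, shearG, if_neg hjl]
  rw [(mem_nhds_plat hε (hx j).1 (hx j).2).deriv_eq]
  simp

theorem shearMv_V_inside {p q : Fin 3 → ℚ} {ε : ℚ} (hε : 0 < ε) {j l : Fin 3} (hjl : j ≠ l)
    (α β : ℚ) {x : E3} (hx : x ∈ OB p q ε) :
    (shearMv p q ε hε j l hjl α β).V x = Pi.single j ((α : ℝ) + (β : ℝ) * x l) := by
  simp only [Mv.V, shearMv]
  rw [dpsi_shear_inside_l hε l α β hx, dpsi_shear_inside_j hε hjl α β hx]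
  simp

/-- the step of a shear of one box inside a box region, the other boxes outside -/
theorem shear_step {n : ℕ} {K K' : Fin n → Set E3} {i₀ : Fin n} {p q : Fin 3 → ℚ} {ε : ℚ}
    (hε : 0 < ε) {j l : Fin 3} (hjl : j ≠ l) {α β : ℚ}
    (h1 : ∀ x ∈ K i₀, x ∈ OB p q ε ∧ shF j l α β x ∈ OB p q ε ∧ shF j l α β x ∈ K' i₀)
    (h2 : ∀ i, i ≠ i₀ → ∀ x ∈ K i, x ∉ CB p q ε ∧ x ∈ K' i) :
    Step (shearMv p q ε hε j l hjl α β) K K'
      (Function.update (fun _ => id) i₀ (shF j l α β)) := by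
  intro i
  by_cases hi : i = i₀
  · subst hi
    simp only [Function.update_self]
    refine ⟨shF_continuous _ _ _ _, fun x hx => (h1 x hx).2.2,
      OB p q ε ∩ (shF j l α β) ⁻¹' (OB p q ε),
      (isOpen_OB p q ε).inter ((isOpen_OB p q ε).preimage (shF_continuous _ _ _ _)),
      fun x hx => ⟨(h1 x hx).1, (h1 x hx).2.1⟩, ?_⟩
    rintro x ⟨hx1, hx2⟩ σ hσ
    set y := x + σ • (shF j l α β x - x) with hy
    have hyl : y l = x l := by
      rw [hy]
      simp only [shF, add_sub_cancel_left, Pi.add_apply, Pi.smul_apply, smul_eq_mul]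
      rw [Pi.single_eq_of_ne (fun e => hjl e.symm)]
      simp
    have hyO : y ∈ OB p q ε := by
      intro a
      have h3 := hx1 a
      have h4 := hx2 a
      have e : y a = (1 - σ) * x a + σ * shF j l α β x a := by
        rw [hy]
        simp only [Pi.add_apply, Pi.smul_apply, Pi.sub_apply, smul_eq_mul]
        ring
      have h5 := (convex_Ioo ((p a : ℝ) - ε) ((q a : ℝ) + ε)) (x := x a) (y := shF j l α β x a)
        ⟨h3.1, h3.2⟩ ⟨h4.1, h4.2⟩ (a := 1 - σ) (b := σ) (by linarith [hσ.2]) hσ.1 (by ring)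
      simp only [smul_eq_mul] at h5
      rw [e]
      exact ⟨h5.1, h5.2⟩
    rw [shearMv_V_inside hε hjl α β hyO, hyl]
    simp [shF]
  · simp only [Function.update_of_ne hi]
    refine ⟨continuous_id, fun x hx => (h2 i hi x hx).2, (CB p q ε)ᶜ, (isClosed_CB p q ε).isOpen_compl,
      fun x hx => (h2 i hi x hx).1, ?_⟩
    intro x hx σ _
    simp only [id, sub_self, smul_zero, add_zero]
    exact shearMv_V_outside hε hjl α β hx

end Crest.Agent.Lib.BF
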