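import Mathlib
import Crest.Agent.Lib.BF.Shear

/-!
Translation chains: a single box moves along one coordinate axis while the other boxes stay out of
the swept region.
-/

namespace Crest.Agent.Lib.BF

open Crest.AnalysisR.BoxFlow Set
open scoped ContDiff

theorem Reach.congr {n : ℕ} {K K' : Fin n → Set E3} {A B : Fin n → E3 → E3} {L : List Mv}
    (h : Reach K K' A L) (hAB : ∀ i x, A i x = B i x) : Reach K K' B L := by
  have : A = B := by
    funext i x
    exact hAB i x
  rw [← this]
  exact h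

theorem Step.toReach {n : ℕ} {m : Mv} {K K' : Fin n → Set E3} {A : Fin n → E3 → E3}
    (h : Step m K K' A) : Reach K K' A [m] :=
  (Reach.cons h (Reach.nil fun _ => Subset.rfl)).congr fun _ _ => rfl

/-- a family of boxes -/
def boxes {n : ℕ} (c w : Fin n → Fin 3 → ℚ) : Fin n → Set E3 := fun i => box (c i) (w i)

theorem mem_box_bounds {c w : Fin 3 → ℚ} {x : E3} (h : x ∈ box c w) (a : Fin 3) :
    (c a : ℝ) - w a ≤ x a ∧ x a ≤ (c a : ℝ) + w a := by
  have := abs_le.1 (h a)
  constructor <;> linarith [this.1, this.2]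

theorem mem_box_of_bounds {c w : Fin 3 → ℚ} {x : E3}
    (h : ∀ a, (c a : ℝ) - w a ≤ x a ∧ x a ≤ (c a : ℝ) + w a) : x ∈ box c w := by
  intro a
  have := h a
  exact abs_le.2 ⟨by linarith [this.1], by linarith [this.2]⟩

/-- choose a positive parameter small enough for finitely many conditions -/
theorem exists_eps {ι : Type*} [Finite ι] {P : ι → ℚ → Prop}
    (h : ∀ i, ∃ e > 0, ∀ ε, 0 < ε → ε ≤ e → P i ε) : ∃ ε > 0, ∀ i, P i ε := by
  have h1 : ∀ i, ∀ᶠ ε in nhdsWithin (0 : ℚ) (Ioi 0), P i ε := fun i => by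
    obtain ⟨e, he, hP⟩ := h i
    filter_upwards [Ioc_mem_nhdsGT he] with ε hε using hP ε hε.1 hε.2
  have h2 := (Filter.eventually_all.2 h1).and self_mem_nhdsWithin
  obtain ⟨ε, h3, h4⟩ := h2.exists
  exact ⟨ε, h4, h3⟩

/-- one translation step of a family of centers -/
def TStep {n : ℕ} (w c c' : Fin n → Fin 3 → ℚ) : Prop :=
  ∃ (i₀ : Fin n) (j : Fin 3) (t : ℚ),
    c' = Function.update c i₀ (Function.update (c i₀) j t) ∧
    ∀ i, i ≠ i₀ → ∃ a,
      (c i a + w i a < c i₀ a - w i₀ a ∧ c i a + w i a < c' i₀ a - w i₀ a) ∨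
      (c i₀ a + w i₀ a < c i a - w i a ∧ c' i₀ a + w i₀ a < c i a - w i a)

theorem TStep.symm {n : ℕ} {w c c' : Fin n → Fin 3 → ℚ} (h : TStep w c c') : TStep w c' c := by
  obtain ⟨i₀, j, t, rfl, hsep⟩ := h
  refine ⟨i₀, j, c i₀ j, ?_, ?_⟩
  · funext i
    by_cases hi : i = i₀
    · subst hi
      simp
    · simp [Function.update_of_ne hi]
  · intro i hi
    obtain ⟨a, ha⟩ := hsep i hi
    simp only [Function.update_of_ne hi] at ha ⊢
    refine ⟨a, ?_⟩
    rcases ha with ha | ha
    · exact Or.inl ⟨ha.2, ha.1⟩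
    · exact Or.inr ⟨ha.2, ha.1⟩

/-- chains of translations -/
def TChain {n : ℕ} (w : Fin n → Fin 3 → ℚ) := Relation.ReflTransGen (TStep w)

theorem TChain.symm {n : ℕ} {w c c' : Fin n → Fin 3 → ℚ} (h : TChain w c c') : TChain w c' c := by
  induction h with
  | refl => exact Relation.ReflTransGen.refl
  | tail _ hbc ih => exact Relation.ReflTransGen.head hbc.symm ih

theorem ne_add_one (j : Fin 3) : j ≠ j + 1 := by
  revert j
  decide

theorem TStep.step {n : ℕ} {w c c' : Fin n → Fin 3 → ℚ} (h : TStep w c c') :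
    ∃ (m : Mv) (A : Fin n → E3 → E3), Step m (boxes c w) (boxes c' w) A ∧
      ∀ i x, A i x = fun a => x a + ((c' i a - c i a : ℚ) : ℝ) := by
  obtain ⟨i₀, j, t, hc', hsep⟩ := h
  have hci : ∀ i, i ≠ i₀ → c' i = c i := fun i hi => by rw [hc', Function.update_of_ne hi]
  have hci₀ : c' i₀ = Function.update (c i₀) j t := by rw [hc', Function.update_self]
  set p : Fin 3 → ℚ := fun a => min (c i₀ a - w i₀ a) (c' i₀ a - w i₀ a) with hp
  set q : Fin 3 → ℚ := fun a => max (c i₀ a + w i₀ a) (c' i₀ a + w i₀ a) with hq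
  -- the parameter
  have hε : ∃ ε > 0, ∀ i : Fin n, i ≠ i₀ → ∀ x ∈ box (c i) (w i), x ∉ CB p q ε := by
    refine exists_eps (P := fun i ε => i ≠ i₀ → ∀ x ∈ box (c i) (w i), x ∉ CB p q ε) ?_
    intro i
    by_cases hi : i = i₀
    · exact ⟨1, one_pos, fun _ _ _ h => absurd hi h⟩
    obtain ⟨a, ha⟩ := hsep i hi
    rcases ha with ha | ha
    · have hgap : c i a + w i a < p a := lt_min ha.1 ha.2
      refine ⟨(p a - (c i a + w i a)) / 3, by linarith, fun ε hε hle _ x hx hCB => ?_⟩
      have h1 := (hCB a).1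
      have h2 := (mem_box_bounds hx a).2
      have h3 : ((2 * ε : ℚ) : ℝ) < ((p a - (c i a + w i a) : ℚ) : ℝ) := by
        exact_mod_cast (by linarith : 2 * ε < p a - (c i a + w i a))
      push_cast at h3
      linarith
    · have hgap : q a < c i a - w i a := max_lt ha.1 ha.2
      refine ⟨(c i a - w i a - q a) / 3, by linarith, fun ε hε hle _ x hx hCB => ?_⟩
      have h1 := (hCB a).2
      have h2 := (mem_box_bounds hx a).1
      have h3 : ((2 * ε : ℚ) : ℝ) < ((c i a - w i a - q a : ℚ) : ℝ) := by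
        exact_mod_cast (by linarith : 2 * ε < c i a - w i a - q a)
      push_cast at h3
      linarith
  obtain ⟨ε, hε, hout⟩ := hε
  have hεR : (0 : ℝ) < ε := by exact_mod_cast hε
  -- the image of the moving box
  have hmap : ∀ x ∈ box (c i₀) (w i₀), shF j (j + 1) (t - c i₀ j) 0 x ∈ box (c' i₀) (w i₀) := by
    intro x hx a
    rw [hci₀]
    by_cases ha : a = j
    · subst ha
      simp only [shF, Pi.add_apply, Pi.single_eq_same, Function.update_self]
      have := hx a
      push_cast
      simp only [zero_mul, add_zero]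
      rw [show x a + ((t : ℝ) - (c i₀ a : ℝ)) - (t : ℝ) = x a - (c i₀ a : ℝ) by ring]
      exact this
    · simp only [shF, Pi.add_apply, Pi.single_eq_of_ne ha, Function.update_of_ne ha, add_zero]
      exact hx a
  have hOB1 : ∀ x ∈ box (c i₀) (w i₀), x ∈ OB p q ε := by
    intro x hx a
    have h1 := mem_box_bounds hx a
    have h2 : (p a : ℝ) ≤ (c i₀ a : ℝ) - w i₀ a := by
      exact_mod_cast (min_le_left _ _)
    have h3 : (c i₀ a : ℝ) + w i₀ a ≤ (q a : ℝ) := by
      exact_mod_cast (le_max_left _ _)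
    exact ⟨by linarith [h1.1], by linarith [h1.2]⟩
  have hOB2 : ∀ x ∈ box (c' i₀) (w i₀), x ∈ OB p q ε := by
    intro x hx a
    have h1 := mem_box_bounds hx a
    have h2 : (p a : ℝ) ≤ (c' i₀ a : ℝ) - w i₀ a := by
      exact_mod_cast (min_le_right _ _)
    have h3 : (c' i₀ a : ℝ) + w i₀ a ≤ (q a : ℝ) := by
      exact_mod_cast (le_max_right _ _)
    exact ⟨by linarith [h1.1], by linarith [h1.2]⟩
  refine ⟨_, _, shear_step hε (ne_add_one j) (K := boxes c w) (K' := boxes c' w) (i₀ := i₀)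
    (p := p) (q := q) (α := t - c i₀ j) (β := 0) ?_ ?_, ?_⟩
  · intro x hx
    exact ⟨hOB1 x hx, hOB2 _ (hmap x hx), hmap x hx⟩
  · intro i hi x hx
    refine ⟨hout i hi x hx, ?_⟩
    show x ∈ box (c' i) (w i)
    rw [hci i hi]
    exact hx
  · intro i x
    by_cases hi : i = i₀
    · subst hi
      simp only [Function.update_self]
      funext a
      rw [hci₀]
      by_cases ha : a = j
      · subst ha
        simp only [shF, Pi.add_apply, Pi.single_eq_same, Function.update_self]
        push_cast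
        ring
      · simp only [shF, Pi.add_apply, Pi.single_eq_of_ne ha, Function.update_of_ne ha, sub_self]
        simp
    · simp only [Function.update_of_ne hi, hci i hi, sub_self]
      funext a
      simp

theorem TChain.reach {n : ℕ} {w c c' : Fin n → Fin 3 → ℚ} (h : TChain w c c') :
    ∃ (L : List Mv) (A : Fin n → E3 → E3), Reach (boxes c w) (boxes c' w) A L ∧
      ∀ i x, A i x = fun a => x a + ((c' i a - c i a : ℚ) : ℝ) := by
  induction h with
  | refl =>
    refine ⟨[], _, Reach.nil fun _ => Subset.rfl, fun i x => ?_⟩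
    funext a
    simp
  | @tail c1 c2 _ hbc ih =>
    obtain ⟨L, A, hr, hA⟩ := ih
    obtain ⟨m, B, hs, hB⟩ := hbc.step
    refine ⟨L ++ [m], _, hr.append hs.toReach, fun i x => ?_⟩
    funext a
    simp only [Function.comp, hA, hB]
    push_cast
    ring

/-- two disjoint boxes are separated along an axis -/
theorem exists_sep_of_disjoint {c w c' w' : Fin 3 → ℚ} (hw : ∀ a, 0 < w a) (hw' : ∀ a, 0 < w' a)
    (h : Disjoint (box c w) (box c' w')) :
    ∃ a, c a + w a < c' a - w' a ∨ c' a + w' a < c a - w a := by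
  by_contra hcon
  push Not at hcon
  have hmem1 : (fun a => ((max (c a - w a) (c' a - w' a) : ℚ) : ℝ)) ∈ box c w := by
    intro a
    have h1 := hcon a
    have h2 := hw a
    have h3 := hw' a
    have h4 : c a - w a ≤ max (c a - w a) (c' a - w' a) := le_max_left _ _
    have h5 : max (c a - w a) (c' a - w' a) ≤ c a + w a :=
      max_le (by linarith) (by linarith [h1.1])
    have h6 : ((c a - w a : ℚ) : ℝ) ≤ ((max (c a - w a) (c' a - w' a) : ℚ) : ℝ) := by
      exact_mod_cast h4
    have h7 : ((max (c a - w a) (c' a - w' a) : ℚ) : ℝ) ≤ ((c a + w a : ℚ) : ℝ) := by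
      exact_mod_cast h5
    push_cast at h6 h7
    push_cast
    exact abs_le.2 ⟨by linarith, by linarith⟩
  have hmem2 : (fun a => ((max (c a - w a) (c' a - w' a) : ℚ) : ℝ)) ∈ box c' w' := by
    intro a
    have h1 := hcon a
    have h2 := hw a
    have h3 := hw' a
    have h4 : c' a - w' a ≤ max (c a - w a) (c' a - w' a) := le_max_right _ _
    have h5 : max (c a - w a) (c' a - w' a) ≤ c' a + w' a :=
      max_le (by linarith [h1.2]) (by linarith)
    have h6 : ((c' a - w' a : ℚ) : ℝ) ≤ ((max (c a - w a) (c' a - w' a) : ℚ) : ℝ) := by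
      exact_mod_cast h4
    have h7 : ((max (c a - w a) (c' a - w' a) : ℚ) : ℝ) ≤ ((c' a + w' a : ℚ) : ℝ) := by
      exact_mod_cast h5
    push_cast at h6 h7
    push_cast
    exact abs_le.2 ⟨by linarith, by linarith⟩
  exact Set.disjoint_left.1 h hmem1 hmem2

/-! ### peeling -/

/-- parking centers -/
def park {n : ℕ} (X : Fin n → ℚ) (Y : ℚ) (i : Fin n) : Fin 3 → ℚ := ![X i, Y, 0]

/-- the intermediate configurations: boxes in `Q` are at their original position -/
def cfg {n : ℕ} (c : Fin n → Fin 3 → ℚ) (X : Fin n → ℚ) (Y : ℚ) (Q : Finset (Fin n)) :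
    Fin n → Fin 3 → ℚ := fun i => if i ∈ Q then c i else park X Y i

theorem peel_step {n : ℕ} {w c : Fin n → Fin 3 → ℚ} {X : Fin n → ℚ} {Y T : ℚ}
    (hw : ∀ i a, 0 ≤ w i a)
    (hd : ∀ i i', i ≠ i' → ∃ a, c i a + w i a < c i' a - w i' a ∨ c i' a + w i' a < c i a - w i a)
    (hT : ∀ i a, c i a + w i a < T)
    (hXT : ∀ i, T ≤ X i - w i 0) (hYT : ∀ i, T ≤ Y - w i 1)
    (hX : ∀ i i', i ≠ i' → X i + w i 0 < X i' - w i' 0 ∨ X i' + w i' 0 < X i - w i 0)
    {Q : Finset (Fin n)} {i : Fin n} (hi : i ∈ Q)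
    (hmax : ∀ i' ∈ Q, c i' 0 - w i' 0 ≤ c i 0 - w i 0) :
    TChain w (cfg c X Y Q) (cfg c X Y (Q.erase i)) := by
  set c0 := cfg c X Y Q with hc0
  have hc0i : c0 i = c i := by simp [hc0, cfg, hi]
  set v1 : Fin 3 → ℚ := Function.update (c i) 0 (X i) with hv1
  set v2 : Fin 3 → ℚ := Function.update v1 1 Y with hv2
  set v3 : Fin 3 → ℚ := Function.update v2 2 0 with hv3
  have hv10 : v1 0 = X i := by simp [hv1]
  have hv20 : v2 0 = X i := by simp [hv2, hv1]
  have hv30 : v3 0 = X i := by simp [hv3, hv2, hv1]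
  set c1 := Function.update c0 i v1 with hc1
  set c2 := Function.update c1 i v2 with hc2
  set c3 := Function.update c2 i v3 with hc3
  have hc1i : c1 i = v1 := by simp [hc1]
  have hc2i : c2 i = v2 := by simp [hc2]
  have hc3i : c3 i = v3 := by simp [hc3]
  have hc1o : ∀ i', i' ≠ i → c1 i' = c0 i' := fun i' h => by simp [hc1, Function.update_of_ne h]
  have hc2o : ∀ i', i' ≠ i → c2 i' = c0 i' := fun i' h => by simp [hc2, hc1o i' h, Function.update_of_ne h]
  have hothers : ∀ i', i' ≠ i → ((i' ∈ Q ∧ c0 i' = c i') ∨ (i' ∉ Q ∧ c0 i' = park X Y i')) := by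
    intro i' _
    by_cases h : i' ∈ Q
    · exact Or.inl ⟨h, by simp [hc0, cfg, h]⟩
    · exact Or.inr ⟨h, by simp [hc0, cfg, h]⟩
  -- the two last moves happen in the band of `X i`
  have hband : ∀ (d d' : Fin n → Fin 3 → ℚ), d i 0 = X i → d' i 0 = X i →
      (∀ i', i' ≠ i → d i' = c0 i') → (∀ i', i' ≠ i → ∃ a,
      (d i' a + w i' a < d i a - w i a ∧ d i' a + w i' a < d' i a - w i a) ∨
      (d i a + w i a < d i' a - w i' a ∧ d' i a + w i a < d i' a - w i' a)) := by
    intro d d' h1 h2 h3 i' hne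
    refine ⟨0, ?_⟩
    rw [h1, h2, h3 i' hne]
    rcases hothers i' hne with ⟨_, h4⟩ | ⟨_, h4⟩
    · left
      rw [h4]
      have := hT i' 0
      have := hXT i
      constructor <;> linarith
    · rw [h4]
      show (X i' + w i' 0 < X i - w i 0 ∧ X i' + w i' 0 < X i - w i 0) ∨
        (X i + w i 0 < X i' - w i' 0 ∧ X i + w i 0 < X i' - w i' 0)
      rcases hX i i' hne.symm with h5 | h5
      · exact Or.inr ⟨h5, h5⟩
      · exact Or.inl ⟨h5, h5⟩
  have h01 : TStep w c0 c1 := by
    refine ⟨i, 0, X i, ?_, ?_⟩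
    · rw [hc1, hc0i]
    · intro i' hne
      rw [hc0i, hc1i]
      rcases hothers i' hne with ⟨hQ, h4⟩ | ⟨_, h4⟩
      · rw [h4]
        obtain ⟨a, ha⟩ := hd i' i hne
        by_cases ha0 : a = 0
        · subst ha0
          rcases ha with ha | ha
          · refine ⟨0, Or.inl ⟨ha, ?_⟩⟩
            rw [hv10]
            have := hT i' 0
            have := hXT i
            linarith
          · exfalso
            have h5 := hmax i' hQ
            have h6 := hw i 0
            have h7 := hw i' 0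
            linarith
        · have hv1a : v1 a = c i a := by simp [hv1, Function.update_of_ne ha0]
          refine ⟨a, ?_⟩
          rw [hv1a]
          rcases ha with ha | ha
          · exact Or.inl ⟨ha, ha⟩
          · exact Or.inr ⟨ha, ha⟩
      · rw [h4]
        refine ⟨1, Or.inr ?_⟩
        have hv11 : v1 1 = c i 1 := by
          simp [hv1]
        rw [hv11]
        show c i 1 + w i 1 < Y - w i' 1 ∧ c i 1 + w i 1 < Y - w i' 1
        have := hT i 1
        have := hYT i'
        constructor <;> linarith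
  have h12 : TStep w c1 c2 := by
    refine ⟨i, 1, Y, ?_, ?_⟩
    · rw [hc2, hc1i]
    · exact hband c1 c2 (by rw [hc1i, hv10]) (by rw [hc2i, hv20]) hc1o
  have h23 : TStep w c2 c3 := by
    refine ⟨i, 2, 0, ?_, ?_⟩
    · rw [hc3, hc2i]
    · exact hband c2 c3 (by rw [hc2i, hv20]) (by rw [hc3i, hv30]) hc2o
  have hfin : c3 = cfg c X Y (Q.erase i) := by
    funext i'
    by_cases hne : i' = i
    · subst hne
      have h1 : i' ∉ Q.erase i' := Finset.notMem_erase i' Q
      simp only [cfg, h1, if_false, hc3i]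
      funext a
      fin_cases a
      · simp [hv3, hv2, hv1, park]
      · simp [hv3, hv2, park]
      · simp [hv3, park]
    · have h1 : c3 i' = c0 i' := by
        simp only [hc3, Function.update_of_ne hne, hc2o i' hne]
      rw [h1]
      simp only [hc0, cfg, Finset.mem_erase, hne, ne_eq, not_false_eq_true, true_and]
  rw [← hfin]
  exact (Relation.ReflTransGen.single h01).tail h12 |>.tail h23

theorem peel_all {n : ℕ} {w c : Fin n → Fin 3 → ℚ} {X : Fin n → ℚ} {Y T : ℚ}
    (hw : ∀ i a, 0 ≤ w i a)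
    (hd : ∀ i i', i ≠ i' → ∃ a, c i a + w i a < c i' a - w i' a ∨ c i' a + w i' a < c i a - w i a)
    (hT : ∀ i a, c i a + w i a < T)
    (hXT : ∀ i, T ≤ X i - w i 0) (hYT : ∀ i, T ≤ Y - w i 1)
    (hX : ∀ i i', i ≠ i' → X i + w i 0 < X i' - w i' 0 ∨ X i' + w i' 0 < X i - w i 0) :
    TChain w c (park X Y) := by
  have key : ∀ Q : Finset (Fin n), TChain w (cfg c X Y Q) (cfg c X Y ∅) := by
    intro Q
    induction Q using Finset.strongInduction with
    | H Q ih =>
      rcases Q.eq_empty_or_nonempty with rfl | hne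
      · exact Relation.ReflTransGen.refl
      · obtain ⟨i, hi, hmax⟩ := Q.exists_max_image (fun i' => c i' 0 - w i' 0) hne
        exact (peel_step hw hd hT hXT hYT hX hi hmax).trans (ih _ (Finset.erase_ssubset hi))
  have h1 : cfg c X Y Finset.univ = c := by
    funext i
    simp [cfg]
  have h2 : cfg c X Y ∅ = park X Y := by
    funext i
    simp [cfg]
  have := key Finset.univ
  rwa [h1, h2] at this

end Crest.Agent.Lib.BF
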