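import Mathlib
import Crest.Agent.Lib.BF.Translate

/-!
Scaling of one box by a sequence of shears with the centre fixed.
-/

namespace Crest.Agent.Lib.BF

open Crest.AnalysisR.BoxFlow Set
open scoped ContDiff

/-- a shear relative to a centre -/
structure Sh where
  j : Fin 3
  l : Fin 3
  ne : j ≠ l
  β : ℚ

/-- the shear map with respect to the centre `c` -/
noncomputable def Sh.F (s : Sh) (c : Fin 3 → ℚ) : E3 → E3 := shF s.j s.l (-s.β * c s.l) s.β

theorem Sh.F_apply (s : Sh) (c : Fin 3 → ℚ) (x : E3) (a : Fin 3) :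
    s.F c x a = if a = s.j then x a + (s.β : ℝ) * (x s.l - c s.l) else x a := by
  unfold Sh.F shF
  by_cases h : a = s.j
  · subst h
    simp only [Pi.add_apply, Pi.single_eq_same, if_true]
    push_cast
    ring
  · simp [Pi.single_eq_of_ne h, h]

/-- a chain of shears -/
noncomputable def run (c : Fin 3 → ℚ) : List Sh → E3 → E3
  | [] => id
  | s :: ss => run c ss ∘ s.F c

theorem run_append (c : Fin 3 → ℚ) (ss tt : List Sh) (x : E3) :
    run c (ss ++ tt) x = run c tt (run c ss x) := by
  induction ss generalizing x with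
  | nil => rfl
  | cons s ss ih =>
    simp only [List.cons_append, run, Function.comp, ih]

/-- a bound for the size after applying shears -/
def growth : List Sh → ℚ → ℚ
  | [], R => R
  | s :: ss, R => growth ss ((1 + |s.β|) * R)

theorem le_growth (ss : List Sh) : ∀ R : ℚ, 0 ≤ R → R ≤ growth ss R := by
  induction ss with
  | nil => exact fun _ _ => le_rfl
  | cons s ss ih =>
    intro R hR
    have h1 : R ≤ (1 + |s.β|) * R := by
      have := mul_nonneg (abs_nonneg s.β) hR
      linarith
    exact h1.trans (ih _ (hR.trans h1))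

theorem Sh.F_mem_cube (s : Sh) {c : Fin 3 → ℚ} {R : ℚ} (hR : 0 ≤ R) {x : E3}
    (hx : x ∈ box c fun _ => R) : s.F c x ∈ box c fun _ => (1 + |s.β|) * R := by
  intro a
  rw [Sh.F_apply]
  have hRR : (0 : ℝ) ≤ R := by exact_mod_cast hR
  have hb : (0 : ℝ) ≤ |(s.β : ℝ)| := abs_nonneg _
  push_cast
  by_cases h : a = s.j
  · subst h
    simp only [if_true]
    have h1 := hx s.j
    have h2 := hx s.l
    simp only at h1 h2
    have h3 : |(s.β : ℝ) * (x s.l - c s.l)| ≤ |(s.β : ℝ)| * R := by
      rw [abs_mul]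
      exact mul_le_mul_of_nonneg_left h2 hb
    calc |x s.j + (s.β : ℝ) * (x s.l - c s.l) - c s.j|
        = |(x s.j - c s.j) + (s.β : ℝ) * (x s.l - c s.l)| := by ring_nf
      _ ≤ |x s.j - c s.j| + |(s.β : ℝ) * (x s.l - c s.l)| := abs_add_le _ _
      _ ≤ (1 + |(s.β : ℝ)|) * R := by linarith
  · simp only [h, if_false]
    have h1 := hx a
    simp only at h1
    have := mul_nonneg hb hRR
    linarith

theorem mem_OB_of_cube {c : Fin 3 → ℚ} {R R1 : ℚ} (h : R ≤ R1) {x : E3}
    (hx : x ∈ box c fun _ => R) :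
    x ∈ OB (fun a => c a - R1) (fun a => c a + R1) 1 := by
  intro a
  have h1 := mem_box_bounds hx a
  have h2 : (R : ℝ) ≤ R1 := by exact_mod_cast h
  push_cast
  exact ⟨by linarith [h1.1], by linarith [h1.2]⟩

theorem run_reach {n : ℕ} (K : Fin n → Set E3) (i₀ : Fin n) (c : Fin 3 → ℚ) (R1 : ℚ)
    (hout : ∀ i, i ≠ i₀ → ∀ x ∈ K i, x ∉ CB (fun a => c a - R1) (fun a => c a + R1) 1)
    (ss : List Sh) :
    ∀ (S : Set E3) (R : ℚ), 0 ≤ R → S ⊆ (box c fun _ => R) → growth ss R ≤ R1 →
      ∃ L, Reach (Function.update K i₀ S) (Function.update K i₀ (run c ss '' S))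
        (Function.update (fun _ => id) i₀ (run c ss)) L := by
  induction ss with
  | nil =>
    intro S R _ _ _
    refine ⟨[], ?_⟩
    have h1 : run c [] '' S = S := by simp [run]
    have h2 : Function.update (fun _ : Fin n => (id : E3 → E3)) i₀ (run c []) = fun _ => id := by
      funext i
      by_cases h : i = i₀
      · subst h; simp [run]
      · simp [Function.update_of_ne h]
    rw [h1, h2]
    exact Reach.nil fun _ => Subset.rfl
  | cons s ss ih =>
    intro S R hR hS hg
    have hR' : 0 ≤ (1 + |s.β|) * R := mul_nonneg (by positivity) hR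
    have hg' : growth ss ((1 + |s.β|) * R) ≤ R1 := hg
    have hle1 : (1 + |s.β|) * R ≤ R1 := (le_growth ss _ hR').trans hg'
    have hle0 : R ≤ R1 := by
      have := mul_nonneg (abs_nonneg s.β) hR
      linarith
    have hS' : s.F c '' S ⊆ (box c fun _ => (1 + |s.β|) * R) := by
      rintro _ ⟨x, hx, rfl⟩
      exact s.F_mem_cube hR (hS hx)
    obtain ⟨L, hL⟩ := ih _ _ hR' hS' hg'
    have hstep : Step (shearMv (fun a => c a - R1) (fun a => c a + R1) 1 one_pos s.j s.l s.ne
        (-s.β * c s.l) s.β) (Function.update K i₀ S) (Function.update K i₀ (s.F c '' S))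
        (Function.update (fun _ => id) i₀ (s.F c)) := by
      refine shear_step one_pos s.ne ?_ ?_
      · intro x hx
        simp only [Function.update_self] at hx ⊢
        have h1 : shF s.j s.l (-s.β * c s.l) s.β x = s.F c x := rfl
        rw [h1]
        exact ⟨mem_OB_of_cube hle0 (hS hx), mem_OB_of_cube hle1 (hS' ⟨x, hx, rfl⟩), ⟨x, hx, rfl⟩⟩
      · intro i hi x hx
        simp only [Function.update_of_ne hi] at hx ⊢
        exact ⟨hout i hi x hx, hx⟩
    refine ⟨shearMv (fun a => c a - R1) (fun a => c a + R1) 1 one_pos s.j s.l s.ne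
        (-s.β * c s.l) s.β :: L, ?_⟩
    have h3 : run c (s :: ss) '' S = run c ss '' (s.F c '' S) := by
      simp only [run, Set.image_comp]
    rw [h3]
    refine (Reach.cons hstep hL).congr ?_
    intro i x
    by_cases h : i = i₀
    · subst h
      simp [run]
    · simp [Function.update_of_ne h]

/-- the scaling list of shears in the plane of the axes `a` and `b` -/
def scaleL (a b : Fin 3) (hab : a ≠ b) (r : ℚ) : List Sh :=
  [⟨b, a, hab.symm, -(r * (r - 1))⟩, ⟨a, b, hab, -(1 / r)⟩, ⟨b, a, hab.symm, r - 1⟩, ⟨a, b, hab, 1⟩]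

theorem run_scaleL {a b : Fin 3} (hab : a ≠ b) {r : ℚ} (hr : r ≠ 0) (c : Fin 3 → ℚ) (x : E3) (e : Fin 3) :
    run c (scaleL a b hab r) x e =
      if e = a then (c a : ℝ) + r * (x a - c a)
      else if e = b then (c b : ℝ) + (1 / r : ℚ) * (x b - c b) else x e := by
  have hrR : (r : ℝ) ≠ 0 := by exact_mod_cast hr
  simp only [scaleL, run, Function.comp, id, Sh.F_apply]
  by_cases h1 : e = a
  · subst h1
    simp only [hab, hab.symm, if_true, if_false]
    push_cast
    field_simp
    ring
  · by_cases h2 : e = b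
    · subst h2
      simp only [h1, hab, hab.symm, Ne.symm hab, if_true, if_false]
      push_cast
      field_simp
      ring
    · simp [h1, h2]

/-- the scaling list -/
def scaleAll (ρ : Fin 3 → ℚ) : List Sh :=
  scaleL 0 1 (by decide) (ρ 0) ++ scaleL 1 2 (by decide) (ρ 0 * ρ 1)

theorem run_scaleAll {ρ : Fin 3 → ℚ} (hρ : ∀ a, 0 < ρ a) (hvol : ∏ a, ρ a = 1) (c : Fin 3 → ℚ) (x : E3)
    (e : Fin 3) :
    run c (scaleAll ρ) x e = (c e : ℝ) + (ρ e : ℝ) * (x e - c e) := by
  have h0 := (hρ 0).ne'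
  have h1 := (hρ 1).ne'
  have h01 : ρ 0 * ρ 1 ≠ 0 := mul_ne_zero h0 h1
  have hprod : ρ 0 * ρ 1 * ρ 2 = 1 := by
    rw [← hvol, Fin.prod_univ_three]
  have h0R : (ρ 0 : ℝ) ≠ 0 := by exact_mod_cast h0
  have h1R : (ρ 1 : ℝ) ≠ 0 := by exact_mod_cast h1
  have hprodR : (ρ 0 : ℝ) * ρ 1 * ρ 2 = 1 := by exact_mod_cast hprod
  unfold scaleAll
  rw [run_append, run_scaleL _ h01]
  fin_cases e
  · simp [run_scaleL (a := 0) (b := 1) (by decide) h0]
  · simp only [Fin.mk_one, Fin.isValue, if_true]
    rw [run_scaleL (a := 0) (b := 1) (by decide) h0]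
    simp
    field_simp
  · have h2 : ((1 / (ρ 0 * ρ 1) : ℚ) : ℝ) = ρ 2 := by
      push_cast
      field_simp
      linarith
    simp only [Fin.reduceFinMk, Fin.isValue]
    simp only [if_true, Fin.isValue, Fin.reduceEq, if_false]
    rw [run_scaleL (a := 0) (b := 1) (by decide) h0, h2]
    simp

/-- the size needed by the shear chain scaling by `ρ` the box of half-widths `h` -/
def sizeOf (ρ h : Fin 3 → ℚ) : ℚ := growth (scaleAll ρ) (∑ a, h a)

theorem one_box_reach {n : ℕ} (K : Fin n → Set E3) (i₀ : Fin n) (c h k : Fin 3 → ℚ) (R1 : ℚ)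
    (hh : ∀ a, 0 < h a) (hk : ∀ a, 0 < k a) (hvol : ∏ a, k a / h a = 1)
    (hout : ∀ i, i ≠ i₀ → ∀ x ∈ K i, x ∉ CB (fun a => c a - R1) (fun a => c a + R1) 1)
    (hK : K i₀ = box c h)
    (hR1 : sizeOf (fun a => k a / h a) h ≤ R1) :
    ∃ L, Reach K (Function.update K i₀ (box c k))
        (Function.update (fun _ => id) i₀
          (fun x e => (c e : ℝ) + ((k e / h e : ℚ) : ℝ) * (x e - c e))) L := by
  set ρ : Fin 3 → ℚ := fun a => k a / h a with hρdef
  have hρ : ∀ a, 0 < ρ a := fun a => div_pos (hk a) (hh a)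
  have hS : box c h ⊆ box c fun _ => ∑ a, h a := by
    intro x hx a
    have h1 := hx a
    have h2 : h a ≤ ∑ a, h a := Finset.single_le_sum (f := h) (fun i _ => (hh i).le) (Finset.mem_univ a)
    have h3 : (h a : ℝ) ≤ ((∑ a, h a : ℚ) : ℝ) := by exact_mod_cast h2
    exact h1.trans h3
  have hpos : 0 ≤ ∑ a, h a := Finset.sum_nonneg fun i _ => (hh i).le
  obtain ⟨L, hL⟩ := run_reach K i₀ c R1 hout (scaleAll ρ) (box c h) (∑ a, h a) hpos hS hR1
  have hK' : Function.update K i₀ (box c h) = K := by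
    rw [← hK, Function.update_eq_self]
  rw [hK'] at hL
  refine ⟨L ++ [], ?_⟩
  have hsub : ∀ i, Function.update K i₀ (run c (scaleAll ρ) '' box c h) i ⊆
      Function.update K i₀ (box c k) i := by
    intro i
    by_cases hi : i = i₀
    · subst hi
      simp only [Function.update_self]
      rintro _ ⟨x, hx, rfl⟩
      intro a
      rw [run_scaleAll hρ hvol]
      have h1 := hx a
      have hhR : (0 : ℝ) < h a := by exact_mod_cast hh a
      have hkR : (0 : ℝ) < k a := by exact_mod_cast hk a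
      have hρR : (ρ a : ℝ) = k a / h a := by
        simp [hρdef]
      rw [add_sub_cancel_left, abs_mul, hρR, abs_of_pos (div_pos hkR hhR)]
      calc (k a : ℝ) / h a * |x a - c a| ≤ (k a : ℝ) / h a * h a :=
            mul_le_mul_of_nonneg_left h1 (div_pos hkR hhR).le
        _ = k a := by field_simp
    · simp only [Function.update_of_ne hi]
      exact Subset.rfl
  refine (hL.append (Reach.nil hsub)).congr ?_
  intro i x
  by_cases hi : i = i₀
  · subst hi
    simp only [Function.comp, id, Function.update_self]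
    funext e
    rw [run_scaleAll hρ hvol]
  · simp [Function.update_of_ne hi]

/-- the scaling stage -/
theorem scale_stage {n : ℕ} (c h k : Fin n → Fin 3 → ℚ) (R0 : ℚ)
    (hh : ∀ i a, 0 < h i a) (hk : ∀ i a, 0 < k i a) (hvol : ∀ i, ∏ a, k i a / h i a = 1)
    (hhR : ∀ i a, h i a ≤ R0) (hkR : ∀ i a, k i a ≤ R0)
    (hR0 : ∀ i, sizeOf (fun a => k i a / h i a) (h i) ≤ R0)
    (hsep : ∀ i i', i ≠ i' → ∀ x ∈ (box (c i') fun _ => R0),
      x ∉ CB (fun a => c i a - R0) (fun a => c i a + R0) 1) :
    ∃ (L : List Mv) (A : Fin n → E3 → E3), Reach (boxes c h) (boxes c k) A L ∧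
      ∀ i x, A i x = fun e => (c i e : ℝ) + ((k i e / h i e : ℚ) : ℝ) * (x e - c i e) := by
  classical
  let KQ : Finset (Fin n) → Fin n → Set E3 := fun Q i => box (c i) (if i ∈ Q then k i else h i)
  have hstage : ∀ Q : Finset (Fin n), ∃ (L : List Mv) (A : Fin n → E3 → E3),
      Reach (boxes c h) (KQ Q) A L ∧ ∀ i x, A i x = if i ∈ Q then
        (fun e => (c i e : ℝ) + ((k i e / h i e : ℚ) : ℝ) * (x e - c i e)) else x := by
    intro Q
    induction Q using Finset.induction_on with
    | empty =>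
      refine ⟨[], _, Reach.nil ?_, ?_⟩
      · intro i
        simp [KQ, boxes]
      · simp
    | insert i₀ Q hi₀ ih =>
      obtain ⟨L, A, hr, hA⟩ := ih
      have hK : KQ Q i₀ = box (c i₀) (h i₀) := by simp [KQ, hi₀]
      have hout : ∀ i, i ≠ i₀ → ∀ x ∈ KQ Q i,
          x ∉ CB (fun a => c i₀ a - R0) (fun a => c i₀ a + R0) 1 := by
        intro i hi x hx
        refine hsep i₀ i hi.symm x ?_
        intro a
        have h1 := hx a
        refine h1.trans ?_
        have h2 : (if i ∈ Q then k i else h i) a ≤ R0 := by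
          split_ifs
          · exact hkR i a
          · exact hhR i a
        exact_mod_cast h2
      obtain ⟨L', hr'⟩ := one_box_reach (KQ Q) i₀ (c i₀) (h i₀) (k i₀) R0 (hh i₀) (hk i₀) (hvol i₀)
        hout hK (hR0 i₀)
      have hupd : Function.update (KQ Q) i₀ (box (c i₀) (k i₀)) = KQ (insert i₀ Q) := by
        funext i
        by_cases hi : i = i₀
        · subst hi
          simp [KQ]
        · simp [KQ, Function.update_of_ne hi, hi]
      rw [hupd] at hr'
      refine ⟨L ++ L', _, hr.append hr', ?_⟩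
      intro i x
      simp only [Function.comp, hA, Finset.mem_insert]
      by_cases hi : i = i₀
      · subst hi
        simp [hi₀]
      · simp [Function.update_of_ne hi, hi]
  obtain ⟨L, A, hr, hA⟩ := hstage Finset.univ
  refine ⟨L, A, ?_, ?_⟩
  · have : KQ Finset.univ = boxes c k := by
      funext i
      simp [KQ, boxes]
    rwa [this] at hr
  · intro i x
    rw [hA]
    simp

end Crest.Agent.Lib.BF
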